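/-
Row 324 (S0582), PDE core, module NL (`iteration`).     Architect of N1, N1', N-R, N2: helper232;   of the term calculus NT and of N0: helper762.
Blueprint: origin/helper232:docs/R324_blueprint.md, section 7.5.       Port of R325/Core/NL (Pk48, Pk50, Pk51, Pk54, Pk57).
DEFINITIONS.
  `nlSq q U (t,y)  = |u|² + |tt u|²`          (u-form `u = (σ, h₃, X b)`, `|.|²` with the weights `κ`),
  `nlAt q g U t`   = the atoms of `U` at time `t` (structure `NTa` of Core/NT/Forms.lean),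
  `nlAa q g U (t,y)` = the atom density `aa(U) = |v|²+|tt v|² + r̂⁻⁴(|u|²+2|tt u|²+|tt²u|²) + Σ_{p ∈ PP}(p²+(tt p)²)`   (without the weights `κ`),
  `nlDD = D0 + D1`,  `nlSub`, `nlAdd`, `nlCut τc S = θ S`.
-/
import Claimed.Agent.R324.Core.NonlinDefs
import Claimed.Agent.R324.Core.NT.Forms
import Claimed.Agent.R324.Core.W.JetE
import Claimed.Agent.R324.Core.CL.TimeDefs

set_option autoImplicit false

namespace Claimed.Agent.R324.Core

open Set Filter Topology MeasureTheory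
open scoped ContDiff

noncomputable section

/-- `|u|² + |tt u|²` at the point `(t,y)`. -/
def nlSq (q : ℝ) (U : Tri) : Fn := fun p => n2 q (slT U p.1) p.2 + n2t q (slT U p.1) p.2

/-- the atoms of `U` at time `t`. -/
def nlAt (q : ℝ) (g : Bg) (U : Tri) (t : ℝ) : NTa where
  A := ![uV (slT U t) 0, uV (slT U t) 1, uV (slT U t) 2,
    tt (uV (slT U t) 0), tt (uV (slT U t) 1), tt (uV (slT U t) 2)]
  v := uV (slT (Lt q g U) t)
  p := ppS (slT U t)

/-- the atom density. -/
def nlAa (q : ℝ) (g : Bg) (U : Tri) : Fn := fun p => ntAa (rh2 q p.1 p.2) (nlAt q g U p.1) p.2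

/-- `D0 + D1`. -/
def nlDD (q : ℝ) (g : Bg) (Γ : ℝ) (U : Tri) (t : ℝ) : ℝ := D0 q Γ U t + D1 q g Γ U t

def nlSub (U V : Tri) : Tri := fun j p => U j p - V j p

def nlAdd (U V : Tri) : Tri := fun j p => U j p + V j p

/-- `θ S`. -/
def nlCut (τc : ℝ) (S : Tri) : Tri := fun j p => thetaC τc p.1 * S j p

/-- `- Res`. -/
def nlRes (q : ℝ) (g : Bg) : Tri := fun j p => - Res q g j p

/-- the right hand side of (N1). -/
def nlQ (q : ℝ) (g : Bg) (Γ a b : ℝ) (U V : Tri) (t : ℝ) : ℝ :=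
  (a ^ 2 + (-t) ^ 6) * nlDD q g Γ (nlSub U V) t + b ^ 2 * (nlDD q g Γ U t + nlDD q g Γ V t)

/-- hygiene. -/
theorem core_nl_defs_hygiene : True := by
  have := @nlSq.eq_1
  have := @nlAt.eq_1
  have := @nlAa.eq_1
  have := @nlDD.eq_1
  have := @nlSub.eq_1
  have := @nlAdd.eq_1
  have := @nlCut.eq_1
  have := @nlRes.eq_1
  have := @nlQ.eq_1
  trivial

end

end Claimed.Agent.R324.Core
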