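/-
Row 324 (S0582), PDE core, module NL (blueprint 7.5).      FILE AtomsB:   part (2) of Core/NL/Atoms.lean  (helper948, subtask 10277).
   𝕀[V₁ (Σ_k ntS2 (A_k)) / r̂⁴] ≤ C (D0 + D1)(U).
-/
import Claimed.Agent.R324.Core.NL.Defs
import Claimed.Agent.R324.Core.W.JetF

set_option autoImplicit false

namespace Claimed.Agent.R324.Core

open Set Filter Topology MeasureTheory
open scoped ContDiff

/-- `Σ ξ_i² ≤ 2 |ξ|²_κ`. -/
theorem nlB_sum_sq_le {q : ℝ} (hq : 1 ≤ q) (ξ : Fin 3 → ℝ) : ∑ i, (ξ i) ^ 2 ≤ 2 * nk q ξ := by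
  have h : 1 / 2 ≤ q / (q + 1) := by
    rw [div_le_div_iff₀ (by norm_num) (by linarith)]
    linarith
  unfold nk kapJ
  simp only [Fin.sum_univ_three]
  simp only [Matrix.cons_val_zero, Matrix.cons_val_one, Matrix.cons_val]
  nlinarith [sq_nonneg (ξ 0), sq_nonneg (ξ 1), sq_nonneg (ξ 2), mul_nonneg (sub_nonneg.2 h) (sq_nonneg (ξ 2))]

/-- the sum over the six `A`-atoms. -/
theorem nlB_sum_A (q : ℝ) (g : Bg) (U : Tri) (t y : ℝ) :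
    ∑ k, ntS2 ((nlAt q g U t).A k) y = ∑ i, ((uV (slT U t) i y) ^ 2 + 2 * (tt (uV (slT U t) i) y) ^ 2
      + (tt (tt (uV (slT U t) i)) y) ^ 2) := by
  simp only [nlAt, Fin.sum_univ_six, Fin.sum_univ_three, ntS2]
  simp only [Matrix.cons_val_zero, Matrix.cons_val_one, Matrix.cons_val]
  ring

/-- squared form of `w3_tt2`. -/
theorem nlB_tt2_sq {C X v a s T : ℝ} (h : |T| ≤ C * (X * |v| + C * |a| + C * s)) :
    T ^ 2 ≤ 3 * C ^ 2 * (X ^ 2 * v ^ 2 + C ^ 2 * a ^ 2 + C ^ 2 * s ^ 2) := by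
  have h1 : T ^ 2 ≤ (C * (X * |v| + C * |a| + C * s)) ^ 2 := by
    rw [← sq_abs T]
    exact pow_le_pow_left₀ (abs_nonneg T) h 2
  have h2 : (X * |v| + C * |a| + C * s) ^ 2 ≤ 3 * ((X * |v|) ^ 2 + (C * |a|) ^ 2 + (C * s) ^ 2) := by
    nlinarith [sq_nonneg (X * |v| - C * |a|), sq_nonneg (X * |v| - C * s), sq_nonneg (C * |a| - C * s)]
  have h3 : (X * |v|) ^ 2 = X ^ 2 * v ^ 2 := by rw [mul_pow, sq_abs]
  have h4 : (C * |a|) ^ 2 = C ^ 2 * a ^ 2 := by rw [mul_pow, sq_abs]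
  have h5 : (C * s) ^ 2 = C ^ 2 * s ^ 2 := mul_pow _ _ _
  rw [h3, h4, h5] at h2
  calc T ^ 2 ≤ (C * (X * |v| + C * |a| + C * s)) ^ 2 := h1
    _ = C ^ 2 * (X * |v| + C * |a| + C * s) ^ 2 := mul_pow _ _ _
    _ ≤ C ^ 2 * (3 * (X ^ 2 * v ^ 2 + C ^ 2 * a ^ 2 + C ^ 2 * s ^ 2)) := mul_le_mul_of_nonneg_left h2 (sq_nonneg C)
    _ = _ := by ring

/-- `(Σ |ξ_j|)² ≤ 3 Σ ξ_j²`. -/
theorem nlB_sum_abs_sq (ξ : Fin 3 → ℝ) : (∑ j, |ξ j|) ^ 2 ≤ 3 * ∑ j, (ξ j) ^ 2 := by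
  simp only [Fin.sum_univ_three]
  have e0 := sq_abs (ξ 0)
  have e1 := sq_abs (ξ 1)
  have e2 := sq_abs (ξ 2)
  nlinarith [sq_nonneg (|ξ 0| - |ξ 1|), sq_nonneg (|ξ 0| - |ξ 2|), sq_nonneg (|ξ 1| - |ξ 2|)]

/-- the pointwise bound. -/
theorem nlB_point {q : ℝ} (hq : 100 ≤ q) {g : Bg} {Λ₀ C : ℝ} (hC : 1 ≤ C) (hc : CoefB q (bgR q g) Λ₀ C) {Γ : ℝ} (hΓ : 0 ≤ Γ)
    {U : Tri} (hU : ∀ j, Sm (U j)) {t : ℝ} (ht : t ∈ Ico (-Λ₀) 0) {y : ℝ} (hy : y ∈ Icc (-1 : ℝ) 1) :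
    V1 q Γ t y * ((∑ k, ntS2 ((nlAt q g U t).A k) y) / (rh2 q t y) ^ 2) ≤
      60 * C ^ 4 * (V0 q Γ t y * (n2t q (slT U t) y + q * n2 q (slT U t) y)
        + V1 q Γ t y * (n2t q (slT (Lt q g U) t) y + q * n2 q (slT (Lt q g U) t) y)) := by
  have ht0 : t < 0 := ht.2
  have hq1 : 1 < q := by linarith
  have hq0 : 0 < q := by linarith
  have hr : 0 < rh2 q t y := w0_rh2_pos hq1 ht0 hy
  have hV0 : 0 < V0 q Γ t y := w0_wL_pos hq1 hΓ ht0 hy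
  have hV : V1 q Γ t y = (rh2 q t y) ^ 2 * V0 q Γ t y := w0_wL_add_two 2 30 q Γ t y
  have hX0 : 0 ≤ Xf y := by
    unfold Xf
    nlinarith [hy.1, hy.2]
  have hX : Xf y ≤ 4 / 3 * rh2 q t y := w0_Xf_le_rh2 hq1 ht0 hy
  have hX2 : Xf y ^ 2 ≤ 16 / 9 * (rh2 q t y) ^ 2 := by nlinarith
  set u : Fin 3 → ℝ := fun i => uV (slT U t) i y with hu
  set a : Fin 3 → ℝ := fun i => tt (uV (slT U t) i) y with ha
  set v : Fin 3 → ℝ := fun i => uV (slT (Lt q g U) t) i y with hv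
  have hT : ∀ i, (tt (tt (uV (slT U t) i)) y) ^ 2 ≤
      3 * C ^ 2 * (Xf y ^ 2 * (v i) ^ 2 + C ^ 2 * (a i) ^ 2 + C ^ 2 * (3 * ∑ j, (u j) ^ 2)) := by
    intro i
    have h1 := nlB_tt2_sq (w3_tt2 hc (by linarith) hU ht hy i)
    refine h1.trans ?_
    have h2 := nlB_sum_abs_sq u
    have h3 : 0 ≤ 3 * C ^ 2 * C ^ 2 := by positivity
    have e : Lop q (bgR q g) U = Lt q g U := rfl
    rw [e]
    nlinarith
  have hsu : ∑ i, (u i) ^ 2 ≤ 2 * n2 q (slT U t) y := by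
    rw [n2_eq_nk]
    exact nlB_sum_sq_le hq1.le u
  have hsa : ∑ i, (a i) ^ 2 ≤ 2 * n2t q (slT U t) y := by
    rw [n2t_eq_nk]
    exact nlB_sum_sq_le hq1.le a
  have hsv : ∑ i, (v i) ^ 2 ≤ 2 * n2 q (slT (Lt q g U) t) y := by
    rw [n2_eq_nk]
    exact nlB_sum_sq_le hq1.le v
  have hsu0 : 0 ≤ ∑ i, (u i) ^ 2 := Finset.sum_nonneg fun j _ => sq_nonneg _
  have hsa0 : 0 ≤ ∑ i, (a i) ^ 2 := Finset.sum_nonneg fun j _ => sq_nonneg _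
  have hsv0 : 0 ≤ ∑ i, (v i) ^ 2 := Finset.sum_nonneg fun j _ => sq_nonneg _
  have hnt := n2t_nonneg hq0 (slT (Lt q g U) t) y
  have hsum : ∑ k, ntS2 ((nlAt q g U t).A k) y ≤
      (1 + 27 * C ^ 4) * ∑ i, (u i) ^ 2 + (2 + 3 * C ^ 4) * ∑ i, (a i) ^ 2 + 3 * C ^ 2 * Xf y ^ 2 * ∑ i, (v i) ^ 2 := by
    rw [nlB_sum_A]
    calc ∑ i, ((uV (slT U t) i y) ^ 2 + 2 * (tt (uV (slT U t) i) y) ^ 2 + (tt (tt (uV (slT U t) i)) y) ^ 2)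
        ≤ ∑ i, ((u i) ^ 2 + 2 * (a i) ^ 2
          + 3 * C ^ 2 * (Xf y ^ 2 * (v i) ^ 2 + C ^ 2 * (a i) ^ 2 + C ^ 2 * (3 * ∑ j, (u j) ^ 2))) :=
          Finset.sum_le_sum fun i _ => by
            have := hT i
            simp only [hu, ha]
            linarith
      _ = _ := by
          simp only [Fin.sum_univ_three]
          ring
  have e1 : V1 q Γ t y * ((∑ k, ntS2 ((nlAt q g U t).A k) y) / (rh2 q t y) ^ 2)
      = V0 q Γ t y * ∑ k, ntS2 ((nlAt q g U t).A k) y := by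
    rw [hV]
    field_simp
  rw [e1]
  have hC2 : 1 ≤ C ^ 2 := one_le_pow₀ hC
  have hC4 : C ^ 2 ≤ C ^ 4 := by nlinarith
  have hn2 := n2_nonneg hq0 (slT U t) y
  have hn2t := n2t_nonneg hq0 (slT U t) y
  have hn2L := n2_nonneg hq0 (slT (Lt q g U) t) y
  -- the three pieces
  have p1 : (1 + 27 * C ^ 4) * ∑ i, (u i) ^ 2 ≤ 60 * C ^ 4 * (q * n2 q (slT U t) y) := by
    have h1 : (1 + 27 * C ^ 4) * ∑ i, (u i) ^ 2 ≤ (28 * C ^ 4) * (2 * n2 q (slT U t) y) :=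
      mul_le_mul (by linarith) hsu hsu0 (by positivity)
    have h2 : n2 q (slT U t) y ≤ q * n2 q (slT U t) y := by nlinarith
    have h3 : 0 ≤ C ^ 4 := by positivity
    nlinarith
  have p2 : (2 + 3 * C ^ 4) * ∑ i, (a i) ^ 2 ≤ 60 * C ^ 4 * n2t q (slT U t) y := by
    have h1 : (2 + 3 * C ^ 4) * ∑ i, (a i) ^ 2 ≤ (5 * C ^ 4) * (2 * n2t q (slT U t) y) :=
      mul_le_mul (by linarith) hsa hsa0 (by positivity)
    have h3 : 0 ≤ C ^ 4 := by positivity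
    nlinarith
  have p3 : 3 * C ^ 2 * Xf y ^ 2 * ∑ i, (v i) ^ 2 ≤
      60 * C ^ 4 * ((rh2 q t y) ^ 2 * (q * n2 q (slT (Lt q g U) t) y)) := by
    have h1 : 3 * C ^ 2 * Xf y ^ 2 * ∑ i, (v i) ^ 2 ≤
        (3 * C ^ 4 * (16 / 9 * (rh2 q t y) ^ 2)) * (2 * n2 q (slT (Lt q g U) t) y) :=
      mul_le_mul (mul_le_mul (by linarith) hX2 (sq_nonneg _) (by positivity)) hsv hsv0 (by positivity)
    have h2 : n2 q (slT (Lt q g U) t) y ≤ q * n2 q (slT (Lt q g U) t) y := by nlinarith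
    have h3 : 0 ≤ C ^ 4 * (rh2 q t y) ^ 2 := by positivity
    nlinarith
  have h4 : 0 ≤ 60 * C ^ 4 * ((rh2 q t y) ^ 2 * n2t q (slT (Lt q g U) t) y) := by positivity
  calc V0 q Γ t y * ∑ k, ntS2 ((nlAt q g U t).A k) y
      ≤ V0 q Γ t y * (60 * C ^ 4 * (q * n2 q (slT U t) y) + 60 * C ^ 4 * n2t q (slT U t) y
        + 60 * C ^ 4 * ((rh2 q t y) ^ 2 * (q * n2 q (slT (Lt q g U) t) y))
        + 60 * C ^ 4 * ((rh2 q t y) ^ 2 * n2t q (slT (Lt q g U) t) y)) :=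
        mul_le_mul_of_nonneg_left (by linarith) hV0.le
    _ = _ := by
        rw [hV]
        ring

/-- continuity of the integrand. -/
theorem nlB_ci {q : ℝ} (hq : 1 < q) (g : Bg) (Γ : ℝ) {U : Tri} (hU : ∀ j, Sm (U j)) {t : ℝ} (ht : t < 0) :
    CI (fun y => V1 q Γ t y * ((∑ k, ntS2 ((nlAt q g U t).A k) y) / (rh2 q t y) ^ 2)) := by
  obtain ⟨Cr, _, hr⟩ := w0_tb_rh2
  have hR : SmI (rh2 q t) := (hr q t hq ht).sm
  have hV1 : SmI (V1 q Γ t) := (smS_wL 4 30 q Γ).smI ht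
  have hu : ∀ i, SmI (uV (slT U t) i) := smI_uV (smI_slT hU ht)
  have hS : SmI (fun y => ∑ i, ((uV (slT U t) i y) ^ 2 + 2 * (tt (uV (slT U t) i) y) ^ 2
      + (tt (tt (uV (slT U t) i)) y) ^ 2)) :=
    smI_sum Finset.univ fun i _ => (((hu i).pow 2).add (((hu i).tt.pow 2).const_mul 2)).add ((hu i).tt.tt.pow 2)
  have h := (hV1.mul (hS.div (hR.pow 2) (fun y hy => (pow_pos (w0_rh2_pos hq ht hy) 2).ne'))).continuousOn
  refine h.congr (fun y _ => ?_)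
  simp only [nlB_sum_A]

/-- **part (2).** -/
theorem nlB_atoms_A (q : ℕ) (hq6 : 10 ^ 6 ≤ q) (g : Bg) (hg : BgGood q g) (Γ : ℝ) (hΓ : 0 ≤ Γ) :
    ∃ C Λ₀ : ℝ, 0 ≤ C ∧ 0 < Λ₀ ∧ ∀ U : Tri, (∀ j, Sm (U j)) → ∀ t ∈ Ico (-Λ₀) 0,
      II (fun y => V1 q Γ t y * ((∑ k, ntS2 ((nlAt q g U t).A k) y) / (rh2 q t y) ^ 2)) ≤ C * nlDD q g Γ U t := by
  have hq : (100 : ℝ) ≤ q := by
    have : (10 ^ 6 : ℝ) ≤ q := by exact_mod_cast hq6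
    linarith
  have hq1 : (1 : ℝ) < q := by linarith
  obtain ⟨Λ₀, C, hΛ, _, hC, hc⟩ := wc_coefB_R hq hg
  refine ⟨60 * C ^ 4, Λ₀, by positivity, hΛ, ?_⟩
  intro U hU t ht
  have ht0 : t < 0 := ht.2
  have hL : ∀ j, Sm (Lt q g U j) := sm_Lt hq1 hg.sm hU
  have hV0 : CI (V0 q Γ t) := ((smS_wL 2 30 q Γ).smI ht0).continuousOn
  have hV1 : CI (V1 q Γ t) := ((smS_wL 4 30 q Γ).smI ht0).continuousOn
  have c0 : CI (fun y => V0 q Γ t y * (n2t q (slT U t) y + q * n2 q (slT U t) y)) :=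
    hV0.mul ((ci_n2t (smI_slT hU ht0)).add (continuousOn_const.mul (ci_n2 (smI_slT hU ht0))))
  have c1 : CI (fun y => V1 q Γ t y * (n2t q (slT (Lt q g U) t) y + q * n2 q (slT (Lt q g U) t) y)) :=
    hV1.mul ((ci_n2t (smI_slT hL ht0)).add (continuousOn_const.mul (ci_n2 (smI_slT hL ht0))))
  have c2 : CI (fun y => V0 q Γ t y * (n2t q (slT U t) y + q * n2 q (slT U t) y)
      + V1 q Γ t y * (n2t q (slT (Lt q g U) t) y + q * n2 q (slT (Lt q g U) t) y)) := c0.add c1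
  have c3 : CI (fun y => 60 * C ^ 4 * (V0 q Γ t y * (n2t q (slT U t) y + q * n2 q (slT U t) y)
      + V1 q Γ t y * (n2t q (slT (Lt q g U) t) y + q * n2 q (slT (Lt q g U) t) y))) := continuousOn_const.mul c2
  refine (ii_mono (nlB_ci hq1 g Γ hU ht0) c3 (fun y hy => nlB_point hq hC hc hΓ hU ht hy)).trans (le_of_eq ?_)
  rw [ii_const_mul, ii_add c0 c1]
  rfl

end Claimed.Agent.R324.Core
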