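/-
Row 324 (S0582), PDE core, module NL (blueprint 7.5), architect helper232.      FILE Atoms:   𝕀[V₁ aa(U)] ≤ C (D0 + D1)(U).
   aa(U) = nlAa q g U = Σ_j ntS2 (v_j) + (Σ_k ntS2 (A_k))/r̂⁴ + Σ_l ntS2 (p_l),      ntS2 A = A² + (tt A)²,    v = uV (slT (Lt q g U) t),   A = (u, tt u), u = uV (slT U t),   p = ppS (slT U t).
   V₁ = V1 q Γ t = wL 4 30 q Γ t = r̂⁴ V₀  (`w0_wL_add_two`),  V₀ = wL 2 30.        κ_i ≥ 1/2:   Σ ξ_i² ≤ 2 nk q ξ.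
 (1) Σ_j ntS2 (v_j) ≤ 2 (n2 + n2t)(Lt U)             ⟹  𝕀[V₁ ..] ≤ 2 D1          (`n2_eq_nk`, `n2t_eq_nk`, q ≥ 1).
 (2) V₁/r̂⁴ = V₀;   Σ_k ntS2 (A_k) = Σ_i (u_i² + 2 (tt u_i)² + (tt² u_i)²);    (tt² u_i)² ≤ 3C²(X² v_i² + C² (tt u_i)² + 3C² Σ u_j²)  (`w3_tt2` for the background bgR q g: Lt q g = Lop q (bgR q g);  `wc_coefB_R` (Core/W/Coef.lean) gives CoefB q (bgR q g) Λ₀ C);
      X² V₀ ≤ (16/9) V₁ (`w0_Xf_le_rh2`).        ⟹  𝕀[V₀ ..] ≤ C (D0 + D1).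
 (3) Σ_l ntS2 (p_l) = ppJ (slT U t);    `w5_EL` with k = 0, V = V₁ (`w5_tbj_wL 4 30`, c₁ = 2 (4+30+2) = 72, 4·72+4 ≤ q):   𝕀[V₁ ppJ] ≤ K elR q (bgR q g) 0 V₁ U t = K (𝕀[V₁ n2(Lt U)] + 𝕀[V₀ (n2t + n2)(U)]) ≤ K (D1 + D0).
 Continuity of all integrands on [-1,1]:  SmI calculus (`smI_slT`, `smI_uV`, `SmI.tt`, `SmI.deriv`, `SmI.continuousOn`), `nl_ci_aa`.
-/
import Claimed.Agent.R324.Core.NL.Defs
import Claimed.Agent.R324.Core.W.JetF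
import Claimed.Agent.R324.Core.NL.AtomsB

set_option autoImplicit false

namespace Claimed.Agent.R324.Core

open Set Filter Topology MeasureTheory
open scoped ContDiff

theorem nl_ci_sq {q : ℝ} {U : Tri} (hU : ∀ j, Sm (U j)) {t : ℝ} (ht : t < 0) :
    ContinuousOn (fun y => nlSq q U (t, y)) (Icc (-1 : ℝ) 1) := by
  have hu : ∀ j, SmI (slT U t j) := smI_slT hU ht
  have h1 : CI (n2 q (slT U t)) := ci_n2 hu
  have h2 : CI (n2t q (slT U t)) := ci_n2t hu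
  exact h1.add h2

theorem nl_smI_ntS2 {A : ℝ → ℝ} (hA : SmI A) : SmI (ntS2 A) := by
  have h : ntS2 A = fun y => (A y) ^ 2 + (tt A y) ^ 2 := rfl
  rw [h]
  exact (hA.pow 2).add (hA.tt.pow 2)

theorem nl_smI_At_v {q : ℝ} (hq : 1 < q) {g : Bg} (hg : BgSm g) {U : Tri} (hU : ∀ j, Sm (U j)) {t : ℝ} (ht : t < 0)
    (j : Fin 3) : SmI ((nlAt q g U t).v j) :=
  smI_uV (smI_slT (sm_Lt hq hg hU) ht) j

theorem nl_smI_At_A (q : ℝ) (g : Bg) {U : Tri} (hU : ∀ j, Sm (U j)) {t : ℝ} (ht : t < 0)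
    (k : Fin 6) : SmI ((nlAt q g U t).A k) := by
  have hu : ∀ i, SmI (uV (slT U t) i) := smI_uV (smI_slT hU ht)
  fin_cases k
  · exact hu 0
  · exact hu 1
  · exact hu 2
  · exact (hu 0).tt
  · exact (hu 1).tt
  · exact (hu 2).tt

theorem nl_smI_At_p (q : ℝ) (g : Bg) {U : Tri} (hU : ∀ j, Sm (U j)) {t : ℝ} (ht : t < 0)
    (l : Fin 4) : SmI ((nlAt q g U t).p l) :=
  smI_ppS (smI_slT hU ht) l

theorem nl_ci_sum_v {q : ℝ} (hq : 1 < q) {g : Bg} (hg : BgSm g) {U : Tri} (hU : ∀ j, Sm (U j)) {t : ℝ} (ht : t < 0) :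
    CI (fun y => ∑ j, ntS2 ((nlAt q g U t).v j) y) :=
  (smI_sum Finset.univ fun j _ => nl_smI_ntS2 (nl_smI_At_v hq hg hU ht j)).continuousOn

theorem nl_ci_sum_A {q : ℝ} (hq : 1 < q) (g : Bg) {U : Tri} (hU : ∀ j, Sm (U j)) {t : ℝ} (ht : t < 0) :
    CI (fun y => (∑ k, ntS2 ((nlAt q g U t).A k) y) / (rh2 q t y) ^ 2) := by
  obtain ⟨Cr, _, hr⟩ := w0_tb_rh2
  have hR : SmI (rh2 q t) := (hr q t hq ht).sm
  have hR0 : ∀ y ∈ Icc (-1 : ℝ) 1, (rh2 q t y) ^ 2 ≠ 0 := fun y hy => (pow_pos (w0_rh2_pos hq ht hy) 2).ne'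
  exact ((smI_sum Finset.univ fun k _ => nl_smI_ntS2 (nl_smI_At_A q g hU ht k)).div (hR.pow 2) hR0).continuousOn

theorem nl_ci_sum_p (q : ℝ) (g : Bg) {U : Tri} (hU : ∀ j, Sm (U j)) {t : ℝ} (ht : t < 0) :
    CI (fun y => ∑ l, ntS2 ((nlAt q g U t).p l) y) :=
  (smI_sum Finset.univ fun l _ => nl_smI_ntS2 (nl_smI_At_p q g hU ht l)).continuousOn

theorem nl_ci_aa {q : ℝ} (hq : 1 < q) {g : Bg} (hg : BgSm g) {U : Tri} (hU : ∀ j, Sm (U j)) {t : ℝ} (ht : t < 0) :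
    ContinuousOn (fun y => nlAa q g U (t, y)) (Icc (-1 : ℝ) 1) :=
  ((nl_ci_sum_v hq hg hU ht).add (nl_ci_sum_A hq g hU ht)).add (nl_ci_sum_p q g hU ht)

theorem nl_aa_nonneg (q : ℝ) (g : Bg) (U : Tri) (p : ℝ × ℝ) : 0 ≤ nlAa q g U p := ntAa_nonneg _ _ _

/-- part (1). -/
theorem nl_atoms_v (q : ℕ) (hq6 : 10 ^ 6 ≤ q) (g : Bg) (hg : BgGood q g) (Γ : ℝ) (hΓ : 0 ≤ Γ) (U : Tri)
    (hU : ∀ j, Sm (U j)) (t : ℝ) (ht : t < 0) :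
    II (fun y => V1 q Γ t y * ∑ j, ntS2 ((nlAt q g U t).v j) y) ≤ 2 * D1 q g Γ U t := by
  have hq6' : (10 : ℝ) ^ 6 ≤ (q : ℝ) := by exact_mod_cast hq6
  have hq1 : (1 : ℝ) < (q : ℝ) := by linarith
  have hq0 : (0 : ℝ) < (q : ℝ) := by linarith
  have hv : ∀ j, SmI (slT (Lt q g U) t j) := smI_slT (sm_Lt hq1 hg.sm hU) ht
  have hV : CI (V1 q Γ t) := ((smS_wL 4 30 q Γ).smI ht).continuousOn
  have c1 : CI (n2 q (slT (Lt q g U) t)) := ci_n2 hv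
  have c2 : CI (n2t q (slT (Lt q g U) t)) := ci_n2t hv
  unfold D1 Di
  rw [← ii_const_mul]
  refine ii_mono (hV.mul (nl_ci_sum_v hq1 hg.sm hU ht)) (continuousOn_const.mul (hV.mul (c2.add (continuousOn_const.mul c1)))) ?_
  intro y hy
  have hV0 : 0 < V1 q Γ t y := w0_wL_pos hq1 hΓ ht hy
  have hn : 0 ≤ n2 q (slT (Lt q g U) t) y := n2_nonneg hq0 _ _
  have key : ∑ j, ntS2 ((nlAt q g U t).v j) y
      ≤ 2 * (n2t q (slT (Lt q g U) t) y + n2 q (slT (Lt q g U) t) y) := by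
    rw [n2_eq_nk, n2t_eq_nk]
    simp only [nk, Fin.sum_univ_three, ntS2, nlAt]
    have k0 : (1 : ℝ) / 2 ≤ kapJ q 0 := by
      show (1 : ℝ) / 2 ≤ (q : ℝ) + 1
      linarith
    have k1 : (1 : ℝ) / 2 ≤ kapJ q 1 := by
      show (1 / 2 : ℝ) ≤ 2
      norm_num
    have k2 : (1 : ℝ) / 2 ≤ kapJ q 2 := by
      show (1 : ℝ) / 2 ≤ (q : ℝ) / ((q : ℝ) + 1)
      rw [div_le_div_iff₀ (by norm_num) (by linarith)]
      linarith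
    have m : ∀ (κ x : ℝ), 1 / 2 ≤ κ → x ^ 2 ≤ 2 * (κ * x ^ 2) := by
      intro κ x hκ
      nlinarith [sq_nonneg x]
    linarith [m _ (uV (slT (Lt q g U) t) 0 y) k0, m _ (uV (slT (Lt q g U) t) 1 y) k1, m _ (uV (slT (Lt q g U) t) 2 y) k2,
      m _ (tt (uV (slT (Lt q g U) t) 0) y) k0, m _ (tt (uV (slT (Lt q g U) t) 1) y) k1, m _ (tt (uV (slT (Lt q g U) t) 2) y) k2]
  have h2 : n2 q (slT (Lt q g U) t) y ≤ q * n2 q (slT (Lt q g U) t) y := by nlinarith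
  calc V1 q Γ t y * ∑ j, ntS2 ((nlAt q g U t).v j) y
      ≤ V1 q Γ t y * (2 * (n2t q (slT (Lt q g U) t) y + q * n2 q (slT (Lt q g U) t) y)) :=
        mul_le_mul_of_nonneg_left (by linarith) hV0.le
    _ = 2 * (V1 q Γ t y * (n2t q (slT (Lt q g U) t) y + q * n2 q (slT (Lt q g U) t) y)) := by ring

/-- part (2). -/
theorem nl_atoms_A (q : ℕ) (hq6 : 10 ^ 6 ≤ q) (g : Bg) (hg : BgGood q g) (Γ : ℝ) (hΓ : 0 ≤ Γ) :
    ∃ C Λ₀ : ℝ, 0 ≤ C ∧ 0 < Λ₀ ∧ ∀ U : Tri, (∀ j, Sm (U j)) → ∀ t ∈ Ico (-Λ₀) 0,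
      II (fun y => V1 q Γ t y * ((∑ k, ntS2 ((nlAt q g U t).A k) y) / (rh2 q t y) ^ 2)) ≤ C * nlDD q g Γ U t :=
  nlB_atoms_A q hq6 g hg Γ hΓ

/-- part (3). -/
theorem nl_atoms_p (q : ℕ) (hq6 : 10 ^ 6 ≤ q) (g : Bg) (hg : BgGood q g) (Γ : ℝ) (hΓ : 0 ≤ Γ) :
    ∃ C Λ₀ : ℝ, 0 ≤ C ∧ 0 < Λ₀ ∧ ∀ U : Tri, (∀ j, Sm (U j)) → ∀ t ∈ Ico (-Λ₀) 0,
      II (fun y => V1 q Γ t y * ∑ l, ntS2 ((nlAt q g U t).p l) y) ≤ C * nlDD q g Γ U t := by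
  have hqR : (10 ^ 6 : ℝ) ≤ (q : ℝ) := by exact_mod_cast hq6
  have hq : (100 : ℝ) ≤ (q : ℝ) := by linarith
  have hq1 : (1 : ℝ) < (q : ℝ) := by linarith
  have hq0 : (0 : ℝ) < (q : ℝ) := by linarith
  obtain ⟨Λ₁, C₁, hΛ₁, hΛ₁q, hC₁, hc⟩ := wc_coefB_R hq hg
  obtain ⟨CV, _, hT⟩ := w5_tbj_wL 4 30
  obtain ⟨C0, _, hT0⟩ := w0_tb_wL 2 30
  obtain ⟨K, hK, hEL⟩ := w5_EL hq (bgR_sm hq1 hg.sm) (by linarith : (0 : ℝ) < C₁) hc hΛ₁q CV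
    (2 * (((4 : ℕ) : ℝ) + ((30 : ℕ) : ℝ) + 2))
  refine ⟨K, min Λ₁ (30 / (31 * q)), hK, lt_min hΛ₁ (by positivity), fun U hU t ht => ?_⟩
  have ht0 : t < 0 := ht.2
  have ht1 : t ∈ Ico (-Λ₁) 0 :=
    ⟨by have := min_le_left Λ₁ (30 / (31 * (q : ℝ))); linarith [ht.1], ht0⟩
  have ht2 : -t ≤ 30 / (31 * (q : ℝ)) := by
    have := min_le_right Λ₁ (30 / (31 * (q : ℝ))); linarith [ht.1]
  have ht3 : (((30 : ℕ) : ℝ) + 1) * q * (-t) ≤ 30 := by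
    rw [le_div_iff₀ (by positivity)] at ht2
    push_cast
    nlinarith
  have hV := hT q Γ t hq hΓ ht0 ht3
  have hV0 := hT0 q Γ t hq1 hΓ ht0
  have hk : 4 * (2 * (((4 : ℕ) : ℝ) + ((30 : ℕ) : ℝ) + 2)) + 4 + 2 * ((0 : ℕ) : ℝ) ≤ (q : ℝ) := by
    push_cast; linarith
  have h1 := hEL t ht1 _ hV 0 hk U hU
  have hu : ∀ j, SmI (slT U t j) := smI_slT hU ht0
  have hv : ∀ j, SmI (slT (Lt q g U) t j) := smI_slT (sm_Lt hq1 hg.sm hU) ht0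
  have cV1 : CI (wL 4 30 q Γ t) := hV.tb.sm.continuousOn
  have cV0 : CI (wL 2 30 q Γ t) := hV0.sm.continuousOn
  have hL : II (fun y => V1 q Γ t y * ∑ l, ntS2 ((nlAt q g U t).p l) y)
      = II (fun y => Xf y ^ 0 * wL 4 30 q Γ t y * ppJ (slT U t) y) :=
    ii_congr fun y _ => by
      rw [pow_zero, one_mul]
      rfl
  have hA : II (fun y => Xf y ^ 0 * wL 4 30 q Γ t y * n2 q (slT (Lop q (bgR q g) U) t) y)
      ≤ D1 q g Γ U t := by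
    have e : II (fun y => Xf y ^ 0 * wL 4 30 q Γ t y * n2 q (slT (Lop q (bgR q g) U) t) y)
        = II (fun y => wL 4 30 q Γ t y * n2 q (slT (Lt q g U) t) y) :=
      ii_congr fun y _ => by
        rw [pow_zero, one_mul]
        rfl
    rw [e]
    show _ ≤ II (fun y => wL 4 30 q Γ t y * (n2t q (slT (Lt q g U) t) y + q * n2 q (slT (Lt q g U) t) y))
    refine ii_mono (cV1.mul (ci_n2 hv)) (cV1.mul ((ci_n2t hv).add (continuousOn_const.mul (ci_n2 hv))))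
      fun y hy => ?_
    have a1 := n2_nonneg hq0 (slT (Lt q g U) t) y
    have a2 := n2t_nonneg hq0 (slT (Lt q g U) t) y
    refine mul_le_mul_of_nonneg_left ?_ (hV.tb.pos y hy).le
    nlinarith
  have hB : II (fun y => Xf y ^ 0 * wL 4 30 q Γ t y / (rh2 q t y) ^ 2
        * (n2t q (slT U t) y + n2 q (slT U t) y)) ≤ D0 q Γ U t := by
    have e : II (fun y => Xf y ^ 0 * wL 4 30 q Γ t y / (rh2 q t y) ^ 2
          * (n2t q (slT U t) y + n2 q (slT U t) y))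
        = II (fun y => wL 2 30 q Γ t y * (n2t q (slT U t) y + n2 q (slT U t) y)) :=
      ii_congr fun y hy => by
        have hr := w0_rh2_pos hq1 ht0 hy
        rw [pow_zero, one_mul, w0_wL_add_two 2 30 q Γ t y, mul_div_cancel_left₀ _ (pow_pos hr 2).ne']
    rw [e]
    show _ ≤ II (fun y => wL 2 30 q Γ t y * (n2t q (slT U t) y + q * n2 q (slT U t) y))
    refine ii_mono (cV0.mul ((ci_n2t hu).add (ci_n2 hu)))
      (cV0.mul ((ci_n2t hu).add (continuousOn_const.mul (ci_n2 hu)))) fun y hy => ?_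
    have a1 := n2_nonneg hq0 (slT U t) y
    refine mul_le_mul_of_nonneg_left ?_ (hV0.pos y hy).le
    nlinarith
  rw [hL]
  refine h1.trans (mul_le_mul_of_nonneg_left ?_ hK)
  unfold elR nlDD
  linarith

/-- **the atoms are controlled by the dissipation.** -/
theorem nl_atoms (q : ℕ) (hq6 : 10 ^ 6 ≤ q) (g : Bg) (hg : BgGood q g) (Γ : ℝ) (hΓ : 0 ≤ Γ) :
    ∃ C Λ₀ : ℝ, 0 ≤ C ∧ 0 < Λ₀ ∧ ∀ U : Tri, (∀ j, Sm (U j)) → ∀ t ∈ Ico (-Λ₀) 0,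
      II (fun y => V1 q Γ t y * nlAa q g U (t, y)) ≤ C * nlDD q g Γ U t := by
  have hq6' : (10 : ℝ) ^ 6 ≤ (q : ℝ) := by exact_mod_cast hq6
  have hq1 : (1 : ℝ) < (q : ℝ) := by linarith
  have hq0 : (0 : ℝ) < (q : ℝ) := by linarith
  obtain ⟨C₂, Λ₂, hC₂, hΛ₂, h2⟩ := nl_atoms_A q hq6 g hg Γ hΓ
  obtain ⟨C₃, Λ₃, hC₃, hΛ₃, h3⟩ := nl_atoms_p q hq6 g hg Γ hΓ
  refine ⟨2 + C₂ + C₃, min Λ₂ Λ₃, by positivity, lt_min hΛ₂ hΛ₃, ?_⟩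
  intro U hU t ht
  have ht0 : t < 0 := ht.2
  have ht2 : t ∈ Ico (-Λ₂) 0 := ⟨by have := min_le_left Λ₂ Λ₃; linarith [ht.1], ht0⟩
  have ht3 : t ∈ Ico (-Λ₃) 0 := ⟨by have := min_le_right Λ₂ Λ₃; linarith [ht.1], ht0⟩
  have hV : CI (V1 q Γ t) := ((smS_wL 4 30 q Γ).smI ht0).continuousOn
  have cv : CI (fun y => V1 q Γ t y * ∑ j, ntS2 ((nlAt q g U t).v j) y) := hV.mul (nl_ci_sum_v hq1 hg.sm hU ht0)
  have cA : CI (fun y => V1 q Γ t y * ((∑ k, ntS2 ((nlAt q g U t).A k) y) / (rh2 q t y) ^ 2)) :=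
    hV.mul (nl_ci_sum_A hq1 g hU ht0)
  have cp : CI (fun y => V1 q Γ t y * ∑ l, ntS2 ((nlAt q g U t).p l) y) := hV.mul (nl_ci_sum_p q g hU ht0)
  have e : II (fun y => V1 q Γ t y * nlAa q g U (t, y))
      = II (fun y => V1 q Γ t y * ∑ j, ntS2 ((nlAt q g U t).v j) y)
        + II (fun y => V1 q Γ t y * ((∑ k, ntS2 ((nlAt q g U t).A k) y) / (rh2 q t y) ^ 2))
        + II (fun y => V1 q Γ t y * ∑ l, ntS2 ((nlAt q g U t).p l) y) := by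
    have cvA : CI (fun y => V1 q Γ t y * ∑ j, ntS2 ((nlAt q g U t).v j) y
        + V1 q Γ t y * ((∑ k, ntS2 ((nlAt q g U t).A k) y) / (rh2 q t y) ^ 2)) := cv.add cA
    rw [← ii_add cv cA, ← ii_add cvA cp]
    refine ii_congr fun y _ => ?_
    simp only [nlAa, ntAa]
    ring
  have h1 := nl_atoms_v q hq6 g hg Γ hΓ U hU t ht0
  have h2' := h2 U hU t ht2
  have h3' := h3 U hU t ht3
  have hD0 : 0 ≤ D0 q Γ U t := by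
    unfold D0 Di
    refine ii_nonneg fun y hy => ?_
    have hV0 : 0 < V0 q Γ t y := w0_wL_pos hq1 hΓ ht0 hy
    have a1 := n2_nonneg hq0 (slT U t) y
    have a2 := n2t_nonneg hq0 (slT U t) y
    positivity
  have hDD : D1 q g Γ U t ≤ nlDD q g Γ U t := by
    unfold nlDD
    linarith
  rw [e]
  nlinarith

end Claimed.Agent.R324.Core
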