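/-
Row 324 (S0582), PDE core, module NL.      OWNER OF THIS FILE: helper762 (module NT, term calculus).       Blueprint 7.5, "N0 MASTER POINTWISE INEQUALITY".
This file fixes the statement used by Core/NL/N1p.lean.      It is the translation of `nt_N0` (Core/NT/N0.lean) + `nt_coef_bd` (Core/NT/Cf.lean) into the notation of Core/NL/Defs.lean.
   NOTE (helper762): the hypothesis is `nlSq ≤ 1/12`  (then `[[u]]² = (ntUb U t y)² ≤ 12 nlSq ≤ 1`, which is what `nt_N0` needs).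
SKETCHES.
* `nl_At_eq`:    both sides are structures `NTa`;  `NTa.mk.injEq` / `congr`;  fields:  A: funext k; fin_cases k; `uV_slT` (Core/W/FormDefs.lean), `sl_ttF` (`sl (ttF f) t = tt (sl f t)`, rfl);    v: funext j; `uV_slT`;    p: funext l; fin_cases l;  `ppS` (Core/W/JetE.lean), `sl (dY f) t = deriv (sl f t)` is rfl  (`dY f (t,y) = deriv (fun z => f (t,z)) y`), `slT U t j = sl (U j) t` rfl.
* `nl_Aa_eq`:    unfold nlAa ntAaU; rw [nl_At_eq].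
* `nl_uT_sub`:   `simp [uT, nlSub]`; split on j = 2; ring.
* `nl_N0`:       K, Λ₀ from `nt_coef_bd` (q ≥ 100);   C := 108 (q+1) 10¹¹ K².      [[u]]² ≤ 12 nlSq U ≤ 1 ⟹ [[u]] ≤ 1 (`nt_Ub_sq_le`, `abs_le_one_iff_mul_self_le_one`/`pow_le_one_iff_of_nonneg`, `ntUb_nonneg`).
      nlSq (dN) ≤ (q+1) Σ_j ntS2 (sl (uT dN j) t)  (`nt_sq_le_S2`),   `sl (uT (nlSub A B) j) t = fun z => uT A j (t,z) - uT B j (t,z)` (`nl_uT_sub`),   `nt_N0` for j = 0,1,2 (`Fin.sum_univ_three`);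
      ([[u]] + [[v]] + Λ³)² ≤ 3 ([[u]]² + [[v]]² + Λ⁶) ≤ 36 (nlSq U + nlSq V + Λ⁶),     [[d]]² ≤ 12 nlSq (U - V);    `nlSub U V = fun j p => U j p - V j p` (rfl);   `nl_Aa_eq`.      Total: 3 (q+1) 10¹¹ K² · 36.
-/
import Claimed.Agent.R324.Core.NL.Defs
import Claimed.Agent.R324.Core.NT.N0
import Claimed.Agent.R324.Core.NT.Cf
import Claimed.Agent.R324.Core.NT.Int

set_option autoImplicit false

namespace Claimed.Agent.R324.Core

open Set Filter Topology MeasureTheory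
open scoped ContDiff

theorem nl_At_eq (q : ℝ) (g : Bg) (U : Tri) (t : ℝ) : nlAt q g U t = (ntAF q g U).sl t := by
  unfold nlAt NTaF.sl ntAF
  simp only [NTa.mk.injEq]
  refine ⟨?_, ?_, ?_⟩
  · funext k
    fin_cases k
    · exact uV_slT U t 0
    · exact uV_slT U t 1
    · exact uV_slT U t 2
    · show tt (uV (slT U t) 0) = sl (ttF (uT U 0)) t
      rw [uV_slT, sl_ttF]
    · show tt (uV (slT U t) 1) = sl (ttF (uT U 1)) t
      rw [uV_slT, sl_ttF]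
    · show tt (uV (slT U t) 2) = sl (ttF (uT U 2)) t
      rw [uV_slT, sl_ttF]
  · funext j
    exact uV_slT _ t j
  · funext l
    fin_cases l <;> rfl

theorem nl_Aa_eq (q : ℝ) (g : Bg) (U : Tri) (t y : ℝ) : nlAa q g U (t, y) = ntAaU q g U t y := by
  unfold nlAa ntAaU
  rw [nl_At_eq]

theorem nl_uT_sub (A B : Tri) (j : Fin 3) (p : ℝ × ℝ) : uT (nlSub A B) j p = uT A j p - uT B j p := by
  unfold uT nlSub
  split_ifs
  · ring
  · rfl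

/-- the arithmetic of `nl_N0`. -/
theorem nt_N0_arith {a b d X Y D κ κ6 Ad AU AV : ℝ} (hX : X ^ 2 ≤ 12 * a) (hY : Y ^ 2 ≤ 12 * b) (hD : D ^ 2 ≤ 12 * d)
    (hκ : κ ^ 2 = κ6) (hAd : 0 ≤ Ad) (hAU : 0 ≤ AU) (hAV : 0 ≤ AV) :
    (X + Y + κ) ^ 2 * Ad + D ^ 2 * (AU + AV) ≤ 36 * ((a + b + κ6) * Ad + d * (AU + AV)) := by
  have h1 : (X + Y + κ) ^ 2 ≤ 36 * (a + b + κ6) := by
    have h0 : 0 ≤ κ6 := hκ ▸ sq_nonneg κ
    nlinarith [sq_nonneg (X - Y), sq_nonneg (X - κ), sq_nonneg (Y - κ)]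
  have h2 : D ^ 2 ≤ 36 * d := by
    have : 0 ≤ d := by nlinarith [sq_nonneg D]
    linarith
  have h3 := mul_le_mul_of_nonneg_right h1 hAd
  have h4 := mul_le_mul_of_nonneg_right h2 (add_nonneg hAU hAV)
  linarith

/-- **N0.**   `|dN|² + |tt dN|² ≤ C [ (|u|²+|tt u|²+|v|²+|tt v|²+Λ⁶) aa(U-V) + (|d|²+|tt d|²)(aa(U)+aa(V)) ]`. -/
theorem nl_N0 (q : ℕ) (hq6 : 10 ^ 6 ≤ q) (g : Bg) (hg : BgGood q g) :
    ∃ C Λ₀ : ℝ, 0 ≤ C ∧ 0 < Λ₀ ∧ ∀ U V : Tri, (∀ j, Sm (U j)) → (∀ j, Sm (V j)) →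
      ∀ t ∈ Ico (-Λ₀) 0, ∀ y ∈ Icc (-1 : ℝ) 1, nlSq q U (t, y) ≤ 1 / 12 → nlSq q V (t, y) ≤ 1 / 12 →
        nlSq q (nlSub (NN q g U) (NN q g V)) (t, y)
          ≤ C * ((nlSq q U (t, y) + nlSq q V (t, y) + (-t) ^ 6) * nlAa q g (nlSub U V) (t, y)
            + nlSq q (nlSub U V) (t, y) * (nlAa q g U (t, y) + nlAa q g V (t, y))) := by
  have hqR : (10 : ℝ) ^ 6 ≤ (q : ℝ) := by exact_mod_cast hq6
  have hq100 : (100 : ℝ) ≤ (q : ℝ) := le_trans (by norm_num) hqR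
  have hq1 : (1 : ℝ) ≤ (q : ℝ) := le_trans (by norm_num) hqR
  obtain ⟨K, Λ₀, hc⟩ := nt_coef_bd hq100 hg
  refine ⟨108 * ((q : ℝ) + 1) * 10 ^ 11 * K ^ 2, Λ₀, by positivity, hc.L0, ?_⟩
  intro U V hU hV t ht y hy h1 h2
  have hu2 : (ntUb U t y) ^ 2 ≤ 12 * nlSq q U (t, y) := nt_Ub_sq_le hq1 U t y
  have hv2 : (ntUb V t y) ^ 2 ≤ 12 * nlSq q V (t, y) := nt_Ub_sq_le hq1 V t y
  have hd2 : (ntUb (fun j p => U j p - V j p) t y) ^ 2 ≤ 12 * nlSq q (nlSub U V) (t, y) :=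
    nt_Ub_sq_le hq1 (nlSub U V) t y
  have hu1 : ntUb U t y ≤ 1 := by
    have := ntUb_nonneg U t y
    nlinarith
  have hv1 : ntUb V t y ≤ 1 := by
    have := ntUb_nonneg V t y
    nlinarith
  have key : ∀ j : Fin 3, ntS2 (sl (uT (nlSub (NN q g U) (NN q g V)) j) t) y
      ≤ 10 ^ 11 * K ^ 2 * ((ntUb U t y + ntUb V t y + (-t) ^ 3) ^ 2 * ntAaU q g (fun j p => U j p - V j p) t y
          + (ntUb (fun j p => U j p - V j p) t y) ^ 2 * (ntAaU q g U t y + ntAaU q g V t y)) := by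
    intro j
    have e : sl (uT (nlSub (NN q g U) (NN q g V)) j) t
        = fun z => uT (NN q g U) j (t, z) - uT (NN q g V) j (t, z) :=
      funext fun z => nl_uT_sub _ _ j (t, z)
    rw [e]
    exact nt_N0 hq100 hg.sm hc hU hV ht hy hu1 hv1 j
  have h3 : nlSq q (nlSub (NN q g U) (NN q g V)) (t, y)
      ≤ ((q : ℝ) + 1) * ∑ j, ntS2 (sl (uT (nlSub (NN q g U) (NN q g V)) j) t) y :=
    nt_sq_le_S2 hq1 (nlSub (NN q g U) (NN q g V)) t y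
  rw [Fin.sum_univ_three] at h3
  have eD : nlAa q g (nlSub U V) (t, y) = ntAaU q g (fun j p => U j p - V j p) t y := nl_Aa_eq q g (nlSub U V) t y
  rw [eD, nl_Aa_eq, nl_Aa_eq]
  have ar := nt_N0_arith (κ := (-t) ^ 3) (κ6 := (-t) ^ 6) hu2 hv2 hd2 (by ring)
    (ntAaU_nonneg q g (fun j p => U j p - V j p) t y) (ntAaU_nonneg q g U t y) (ntAaU_nonneg q g V t y)
  have k0 := key 0
  have k1 := key 1
  have k2 := key 2
  have hK : (0 : ℝ) ≤ 10 ^ 11 * K ^ 2 := by positivity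
  have ar' := mul_le_mul_of_nonneg_left ar hK
  have hq0 : (0 : ℝ) ≤ (q : ℝ) + 1 := by linarith
  have s3 := mul_le_mul_of_nonneg_left (add_le_add (add_le_add (k0.trans ar') (k1.trans ar')) (k2.trans ar')) hq0
  refine (h3.trans s3).trans (le_of_eq ?_)
  ring

end Claimed.Agent.R324.Core
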