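/-
Row 324 (S0582), PDE core, module NL (blueprint 7.5), architect helper232.      FILE Wts: inequalities between the weights.
   Λ = -t,  R = rh2 q t y = ℓ² + X̃,  T = Th t y = Λ + X̃,  ℓ² = ell2 q t = (q-1)/100 Λ^{2γ},  γ = gaF q = 8/bAl q,  2 < bAl q  (`bAl_bounds`), so 2γ < 8;     V₁ = wL 4 30 = R⁴ ((1+Γ)Λ+X̃)/T³¹ ≥ R⁴/T³⁰,     wH 3 52 = R³/T⁵²,    0 ≤ X ≤ (4/3) R  (`w0_Xf_le_rh2`),   R ≤ T ≤ 2 (`w0_rh2_le_Th`, `w0_Th_le_two`).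
* `nl_wt_sup`:  `w0_rh7'` (Core/W/WtC.lean):  c T³⁰ ≤ R³ √R.
* `nl_wt_heavy`:  Λ^{95/2-2η} X² (R³/T⁵²) T³⁰ ≤ C R³√R · R⁴/T³⁰   ⟸   Λ^{95/2-2η} (16/9) T⁸ ≤ C R²√R      (95/2 - 2η ≥ 197/10).
        X̃ ≤ Λ:  T ≤ 2Λ,  R ≥ ℓ² ≥ (q-1)/100 Λ⁸ ≥ Λ⁸ (Λ ≤ 1, 2γ ≤ 8, q ≥ 101), so R²√R ≥ Λ²⁰;    Λ^{19.7} 2⁸ Λ⁸ ≤ 2⁸ Λ²⁰.          X̃ ≥ Λ:  T ≤ 2 X̃ ≤ 2R, T ≤ 2:   T⁸ ≤ 2⁸ R⁸ ≤ 2⁸ · 2^{5.5} R^{2.5};  Λ^{19.7} ≤ 1.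
* `nl_wt_heavy0`:  Λ^{95/2-2η} Λ⁶ X² R³/T⁵² ≤ C Λ⁴ R⁴/T³⁰   ⟸   Λ^{25.7} (16/9) R ≤ C Λ⁴ T²²   ⟸   R ≤ T,  T ≥ Λ:  T²² ≥ T Λ²¹,  Λ^{25.7} ≤ Λ²⁵.
   Real powers:  (-t)^(r:ℝ) with 0 < -t ≤ 1:  `Real.rpow_le_rpow_of_exponent_ge`, `Real.rpow_natCast`, `Real.rpow_add`.
-/
import Claimed.Agent.R324.Core.NL.Defs

set_option autoImplicit false

namespace Claimed.Agent.R324.Core

open Set Filter Topology MeasureTheory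
open scoped ContDiff

/-- (aux) `nlSq ≥ 0`. -/
theorem nl_wt_sq_nonneg {q : ℝ} (hq : 0 ≤ q) (U : Tri) (p : ℝ × ℝ) : 0 ≤ nlSq q U p := by
  unfold nlSq n2 n2t
  have h1 : 0 ≤ q / (q + 1) := by positivity
  positivity

/-- the sup bound gives a pointwise bound. -/
theorem nl_wt_sup (q : ℝ) (hq : 100 ≤ q) : ∃ c : ℝ, 0 < c ∧ ∀ (U : Tri) (t a : ℝ), t < 0 → -t ≤ 100 / q → SupB q 30 U t a →
    ∀ y ∈ Icc (-1 : ℝ) 1, c * nlSq q U (t, y) ≤ a ^ 2 := by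
  obtain ⟨c, hc, h⟩ := w0_rh7' hq
  refine ⟨c, hc, fun U t a ht hΛ hS y hy => ?_⟩
  have h1 := h t ht hΛ y hy
  have h2 : (rh2 q t y) ^ 3 * Real.sqrt (rh2 q t y) * nlSq q U (t, y) ≤ a ^ 2 * (Th t y) ^ 30 := hS y hy
  have h3 : 0 ≤ nlSq q U (t, y) := nl_wt_sq_nonneg (by linarith) U _
  have hT : 0 < (Th t y) ^ 30 := pow_pos (w0_Th_pos ht hy) 30
  have h4 := mul_le_mul_of_nonneg_right h1 h3
  have h5 : (c * nlSq q U (t, y)) * (Th t y) ^ 30 ≤ a ^ 2 * (Th t y) ^ 30 := by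
    calc _ = c * (Th t y) ^ 30 * nlSq q U (t, y) := by ring
      _ ≤ _ := h4.trans h2
  exact le_of_mul_le_mul_right h5 hT

/-- (aux) the real power is at most `Λ¹⁹`. -/
theorem nl_wt_pow {η L : ℝ} (hη : η ≤ 139 / 10) (hL0 : 0 < L) (hL1 : L ≤ 1) :
    0 ≤ L ^ ((95 : ℝ) / 2 - 2 * η) ∧ L ^ ((95 : ℝ) / 2 - 2 * η) ≤ L ^ 19 := by
  refine ⟨(Real.rpow_pos_of_pos hL0 _).le, ?_⟩
  have h1 : L ^ ((95 : ℝ) / 2 - 2 * η) ≤ L ^ ((19 : ℕ) : ℝ) :=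
    Real.rpow_le_rpow_of_exponent_ge hL0 hL1 (by push_cast; linarith)
  rwa [Real.rpow_natCast] at h1

/-- (aux) `Λ⁸ ≤ r̂²`. -/
theorem nl_wt_rh2_ge {q t y : ℝ} (hq : 10 ^ 6 ≤ q) (ht : t < 0) (hL1 : -t ≤ 1) (hy : y ∈ Icc (-1 : ℝ) 1) :
    (-t) ^ 8 ≤ rh2 q t y := by
  have hL0 : 0 < -t := by linarith
  have hX0 := (Xt_nonneg hy.1 hy.2).1
  have hg : 2 * gaF q ≤ 8 := by
    have hb := (bAl_bounds (q := q) (by linarith)).1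
    unfold gaF
    rw [← mul_div_assoc, div_le_iff₀ (by linarith)]
    linarith
  have h2 : (-t) ^ (8 : ℝ) ≤ (-t) ^ (2 * gaF q) := Real.rpow_le_rpow_of_exponent_ge hL0 hL1 hg
  have h4 : (-t) ^ (8 : ℝ) = (-t) ^ 8 := by
    rw [show (8 : ℝ) = ((8 : ℕ) : ℝ) by norm_num, Real.rpow_natCast]
  rw [h4] at h2
  have hc : (1 : ℝ) ≤ (q - 1) / 100 := by linarith
  have h8 : 0 ≤ (-t) ^ 8 := by positivity
  have h6 : 1 * (-t) ^ 8 ≤ (q - 1) / 100 * (-t) ^ (2 * gaF q) := mul_le_mul hc h2 h8 (by linarith)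
  unfold rh2 ell2 lam2
  linarith

/-- (aux) abstract form of `nl_wt_heavy`. -/
theorem nl_wt_abs {P X R T S V K : ℝ} (hP : 0 ≤ P) (hX0 : 0 ≤ X) (hX : X ≤ 4 / 3 * R) (hR : 0 < R) (hT : 0 < T)
    (hS : 0 ≤ S) (hK : 0 ≤ K) (key : P * T ^ 8 ≤ K * (R ^ 2 * S)) (hV : R ^ 4 / T ^ 30 ≤ V) :
    P * (X ^ 2 * (R ^ 3 / T ^ 52)) * T ^ 30 ≤ 16 / 9 * K * (R ^ 3 * S) * V := by
  have hX2 : X ^ 2 ≤ 16 / 9 * R ^ 2 := by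
    have := pow_le_pow_left₀ hX0 hX 2
    calc X ^ 2 ≤ (4 / 3 * R) ^ 2 := this
      _ = 16 / 9 * R ^ 2 := by ring
  have h1 : P * (X ^ 2 * (R ^ 3 / T ^ 52)) * T ^ 30 ≤ P * (16 / 9 * R ^ 2 * (R ^ 3 / T ^ 52)) * T ^ 30 := by
    have a1 : 0 ≤ R ^ 3 / T ^ 52 := by positivity
    have a2 := mul_le_mul_of_nonneg_right hX2 a1
    have a3 := mul_le_mul_of_nonneg_left a2 hP
    exact mul_le_mul_of_nonneg_right a3 (by positivity)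
  have h2 : P * (16 / 9 * R ^ 2 * (R ^ 3 / T ^ 52)) * T ^ 30 = 16 / 9 * (P * T ^ 8) * (R ^ 5 / T ^ 30) := by
    field_simp
  have h3 : 16 / 9 * (P * T ^ 8) * (R ^ 5 / T ^ 30) ≤ 16 / 9 * (K * (R ^ 2 * S)) * (R ^ 5 / T ^ 30) := by
    have a1 : 0 ≤ R ^ 5 / T ^ 30 := by positivity
    exact mul_le_mul_of_nonneg_right (mul_le_mul_of_nonneg_left key (by norm_num)) a1
  have h4 : 16 / 9 * (K * (R ^ 2 * S)) * (R ^ 5 / T ^ 30) = 16 / 9 * K * (R ^ 3 * S) * (R ^ 4 / T ^ 30) := by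
    field_simp
  have h5 : 16 / 9 * K * (R ^ 3 * S) * (R ^ 4 / T ^ 30) ≤ 16 / 9 * K * (R ^ 3 * S) * V :=
    mul_le_mul_of_nonneg_left hV (by positivity)
  linarith

theorem nl_wt_heavy (q : ℝ) (hq : 10 ^ 6 ≤ q) : ∃ C : ℝ, 0 ≤ C ∧ ∀ Γ : ℝ, 0 ≤ Γ → ∀ η : ℝ, η ≤ 139 / 10 → ∀ t : ℝ, t < 0 →
    -t ≤ 100 / q → ∀ y ∈ Icc (-1 : ℝ) 1,
      (-t) ^ ((95 : ℝ) / 2 - 2 * η) * ((1 - y ^ 2) ^ 2 * wH 3 52 q t y) * (Th t y) ^ 30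
        ≤ C * ((rh2 q t y) ^ 3 * Real.sqrt (rh2 q t y)) * V1 q Γ t y := by
  refine ⟨16 / 9 * 2 ^ 14, by positivity, fun Γ hΓ η hη t ht hΛ y hy => ?_⟩
  have hq100 : (100 : ℝ) ≤ q := by linarith
  have hq1 : (1 : ℝ) < q := by linarith
  have hL0 : 0 < -t := by linarith
  have hL1 : -t ≤ 1 := hΛ.trans (by rw [div_le_one (by linarith)]; exact hq100)
  obtain ⟨hP0, hP⟩ := nl_wt_pow hη hL0 hL1
  have hR := w0_rh2_pos hq1 ht hy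
  have hT := w0_Th_pos ht hy
  have hRT := w0_rh2_le_Th hq100 ht hΛ y
  have hT2 := w0_Th_le_two (t := t) (by linarith) hy
  have hX0 : 0 ≤ 1 - y ^ 2 := w0_Xf_nonneg hy
  have hX : 1 - y ^ 2 ≤ 4 / 3 * rh2 q t y := w0_Xf_le_rh2 hq1 ht hy
  have hV : (rh2 q t y) ^ 4 / (Th t y) ^ 30 ≤ V1 q Γ t y := w0_wH_le_wL (a := 4) (M := 30) hq1 hΓ ht hy
  have hXt0 := (Xt_nonneg hy.1 hy.2).1
  have hS0 : 0 ≤ Real.sqrt (rh2 q t y) := Real.sqrt_nonneg _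
  have hSS : Real.sqrt (rh2 q t y) * Real.sqrt (rh2 q t y) = rh2 q t y := Real.mul_self_sqrt hR.le
  have key : (-t) ^ ((95 : ℝ) / 2 - 2 * η) * (Th t y) ^ 8
      ≤ 2 ^ 14 * ((rh2 q t y) ^ 2 * Real.sqrt (rh2 q t y)) := by
    rcases le_total (Xt y) (-t) with h | h
    · -- `T ≤ 2Λ`, `R ≥ Λ⁸`
      have hT' : Th t y ≤ 2 * (-t) := by unfold Th; linarith
      have hR8 := nl_wt_rh2_ge hq ht hL1 hy
      have b1 : (Th t y) ^ 8 ≤ (2 * (-t)) ^ 8 := pow_le_pow_left₀ hT.le hT' 8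
      have b2 : ((-t) ^ 8) ^ 2 ≤ (rh2 q t y) ^ 2 := pow_le_pow_left₀ (by positivity) hR8 2
      have b3 : (-t) ^ 4 ≤ Real.sqrt (rh2 q t y) := by
        apply Real.le_sqrt_of_sq_le
        calc ((-t) ^ 4) ^ 2 = (-t) ^ 8 := by ring
          _ ≤ _ := hR8
      have b4 : ((-t) ^ 8) ^ 2 * (-t) ^ 4 ≤ (rh2 q t y) ^ 2 * Real.sqrt (rh2 q t y) :=
        mul_le_mul b2 b3 (by positivity) (by positivity)
      have b5 : (-t) ^ 27 ≤ (-t) ^ 20 := pow_le_pow_of_le_one hL0.le hL1 (by norm_num)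
      calc (-t) ^ ((95 : ℝ) / 2 - 2 * η) * (Th t y) ^ 8 ≤ (-t) ^ 19 * (2 * (-t)) ^ 8 :=
            mul_le_mul hP b1 (by positivity) (by positivity)
        _ = 2 ^ 8 * (-t) ^ 27 := by ring
        _ ≤ 2 ^ 8 * (-t) ^ 20 := mul_le_mul_of_nonneg_left b5 (by positivity)
        _ = 2 ^ 8 * (((-t) ^ 8) ^ 2 * (-t) ^ 4) := by ring
        _ ≤ 2 ^ 8 * ((rh2 q t y) ^ 2 * Real.sqrt (rh2 q t y)) := mul_le_mul_of_nonneg_left b4 (by positivity)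
        _ ≤ 2 ^ 14 * ((rh2 q t y) ^ 2 * Real.sqrt (rh2 q t y)) :=
            mul_le_mul_of_nonneg_right (by norm_num) (by positivity)
    · -- `T ≤ 2R`, `R ≤ 2`
      have hell := w0_ell2_pos hq1 ht
      have hT' : Th t y ≤ 2 * rh2 q t y := by unfold Th rh2; linarith
      have hR2 : rh2 q t y ≤ 2 := hRT.trans hT2
      have b1 : (Th t y) ^ 8 ≤ (2 * rh2 q t y) ^ 8 := pow_le_pow_left₀ hT.le hT' 8
      have hP1 : (-t) ^ ((95 : ℝ) / 2 - 2 * η) ≤ 1 := hP.trans (pow_le_one₀ hL0.le hL1)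
      have b2 : Real.sqrt (rh2 q t y) ≤ 2 := by
        rw [Real.sqrt_le_left (by norm_num)]
        linarith
      have b3 : (rh2 q t y) ^ 5 ≤ 2 ^ 5 := pow_le_pow_left₀ hR.le hR2 5
      have b4 : (rh2 q t y) ^ 6 ≤ 2 ^ 6 * Real.sqrt (rh2 q t y) := by
        calc (rh2 q t y) ^ 6 = (rh2 q t y) ^ 5 * (Real.sqrt (rh2 q t y) * Real.sqrt (rh2 q t y)) := by
              rw [hSS]; ring
          _ ≤ 2 ^ 5 * (2 * Real.sqrt (rh2 q t y)) :=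
              mul_le_mul b3 (mul_le_mul_of_nonneg_right b2 hS0) (by positivity) (by positivity)
          _ = 2 ^ 6 * Real.sqrt (rh2 q t y) := by ring
      calc (-t) ^ ((95 : ℝ) / 2 - 2 * η) * (Th t y) ^ 8 ≤ 1 * (2 * rh2 q t y) ^ 8 :=
            mul_le_mul hP1 b1 (by positivity) (by norm_num)
        _ = 2 ^ 8 * (rh2 q t y) ^ 2 * (rh2 q t y) ^ 6 := by ring
        _ ≤ 2 ^ 8 * (rh2 q t y) ^ 2 * (2 ^ 6 * Real.sqrt (rh2 q t y)) :=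
            mul_le_mul_of_nonneg_left b4 (by positivity)
        _ = 2 ^ 14 * ((rh2 q t y) ^ 2 * Real.sqrt (rh2 q t y)) := by ring
  exact nl_wt_abs hP0 hX0 hX hR hT hS0 (by positivity) key hV

theorem nl_wt_heavy0 (q : ℝ) (hq : 10 ^ 6 ≤ q) : ∃ C : ℝ, 0 ≤ C ∧ ∀ Γ : ℝ, 0 ≤ Γ → ∀ η : ℝ, η ≤ 139 / 10 → ∀ t : ℝ, t < 0 →
    -t ≤ 100 / q → ∀ y ∈ Icc (-1 : ℝ) 1,
      (-t) ^ ((95 : ℝ) / 2 - 2 * η) * ((1 - y ^ 2) ^ 2 * wH 3 52 q t y) * (-t) ^ 6 ≤ C * (-t) ^ 4 * V1 q Γ t y := by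
  refine ⟨16 / 9, by positivity, fun Γ hΓ η hη t ht hΛ y hy => ?_⟩
  have hq100 : (100 : ℝ) ≤ q := by linarith
  have hq1 : (1 : ℝ) < q := by linarith
  have hL0 : 0 < -t := by linarith
  have hL1 : -t ≤ 1 := hΛ.trans (by rw [div_le_one (by linarith)]; exact hq100)
  obtain ⟨hP0, hP⟩ := nl_wt_pow hη hL0 hL1
  have hR := w0_rh2_pos hq1 ht hy
  have hT := w0_Th_pos ht hy
  have hRT := w0_rh2_le_Th hq100 ht hΛ y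
  have hLT : -t ≤ Th t y := w0_Lam_le_Th hy
  have hX0 : 0 ≤ 1 - y ^ 2 := w0_Xf_nonneg hy
  have hX : 1 - y ^ 2 ≤ 4 / 3 * rh2 q t y := w0_Xf_le_rh2 hq1 ht hy
  have hV : (rh2 q t y) ^ 4 / (Th t y) ^ 30 ≤ V1 q Γ t y := w0_wH_le_wL (a := 4) (M := 30) hq1 hΓ ht hy
  have hX2 : (1 - y ^ 2) ^ 2 ≤ 16 / 9 * (rh2 q t y) ^ 2 := by
    calc (1 - y ^ 2) ^ 2 ≤ (4 / 3 * rh2 q t y) ^ 2 := pow_le_pow_left₀ hX0 hX 2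
      _ = 16 / 9 * (rh2 q t y) ^ 2 := by ring
  have key : (-t) ^ ((95 : ℝ) / 2 - 2 * η) * (-t) ^ 2 * rh2 q t y ≤ (Th t y) ^ 22 := by
    calc (-t) ^ ((95 : ℝ) / 2 - 2 * η) * (-t) ^ 2 * rh2 q t y ≤ (-t) ^ 19 * (-t) ^ 2 * Th t y :=
          mul_le_mul (mul_le_mul_of_nonneg_right hP (by positivity)) hRT hR.le (by positivity)
      _ = (-t) ^ 21 * Th t y := by ring
      _ ≤ (Th t y) ^ 21 * Th t y := mul_le_mul_of_nonneg_right (pow_le_pow_left₀ hL0.le hLT 21) hT.le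
      _ = (Th t y) ^ 22 := by ring
  have h1 : (-t) ^ ((95 : ℝ) / 2 - 2 * η) * ((1 - y ^ 2) ^ 2 * wH 3 52 q t y) * (-t) ^ 6
      ≤ (-t) ^ ((95 : ℝ) / 2 - 2 * η) * (16 / 9 * (rh2 q t y) ^ 2 * ((rh2 q t y) ^ 3 / (Th t y) ^ 52)) * (-t) ^ 6 := by
    have a1 : 0 ≤ (rh2 q t y) ^ 3 / (Th t y) ^ 52 := by positivity
    have a2 : (1 - y ^ 2) ^ 2 * wH 3 52 q t y ≤ 16 / 9 * (rh2 q t y) ^ 2 * ((rh2 q t y) ^ 3 / (Th t y) ^ 52) :=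
      mul_le_mul_of_nonneg_right hX2 a1
    exact mul_le_mul_of_nonneg_right (mul_le_mul_of_nonneg_left a2 hP0) (by positivity)
  have h2 : (-t) ^ ((95 : ℝ) / 2 - 2 * η) * (16 / 9 * (rh2 q t y) ^ 2 * ((rh2 q t y) ^ 3 / (Th t y) ^ 52)) * (-t) ^ 6
      = 16 / 9 * (-t) ^ 4 * ((-t) ^ ((95 : ℝ) / 2 - 2 * η) * (-t) ^ 2 * rh2 q t y)
        * ((rh2 q t y) ^ 4 / (Th t y) ^ 52) := by
    field_simp
  have h3 : 16 / 9 * (-t) ^ 4 * ((-t) ^ ((95 : ℝ) / 2 - 2 * η) * (-t) ^ 2 * rh2 q t y)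
        * ((rh2 q t y) ^ 4 / (Th t y) ^ 52)
      ≤ 16 / 9 * (-t) ^ 4 * (Th t y) ^ 22 * ((rh2 q t y) ^ 4 / (Th t y) ^ 52) :=
    mul_le_mul_of_nonneg_right (mul_le_mul_of_nonneg_left key (by positivity)) (by positivity)
  have h4 : 16 / 9 * (-t) ^ 4 * (Th t y) ^ 22 * ((rh2 q t y) ^ 4 / (Th t y) ^ 52)
      = 16 / 9 * (-t) ^ 4 * ((rh2 q t y) ^ 4 / (Th t y) ^ 30) := by
    field_simp
  have h5 : 16 / 9 * (-t) ^ 4 * ((rh2 q t y) ^ 4 / (Th t y) ^ 30) ≤ 16 / 9 * (-t) ^ 4 * V1 q Γ t y :=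
    mul_le_mul_of_nonneg_left hV (by positivity)
  linarith

end Claimed.Agent.R324.Core
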