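/-
Row 324 (S0582), PDE core, module NL (blueprint 7.5), architect helper232.      FILE N1p: the pointwise form of (N1).
 From `nl_N0` (constants C₀, Λ₀) and `nl_wt_sup` (constant c):    a₀ := √(c/12) (so that a ≤ a₀ ⟹ nlSq ≤ a²/c ≤ 1/12).
     nlSq(dN) ≤ C₀ ((2a²/c + Λ⁶) aa(d) + (b²/c)(aa(U)+aa(V))) ≤ C₀ (2/c + 1) ((a² + Λ⁶) aa(d) + b² (aa(U)+aa(V))).
 The second statement keeps the factor T³⁰/(R³√R):   (R³√R) nlSq(U) ≤ a² T³⁰  is `SupB` itself.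
-/
import Claimed.Agent.R324.Core.NL.N0
import Claimed.Agent.R324.Core.NL.Wts
import Claimed.Agent.R324.Core.NL.Atoms

set_option autoImplicit false

namespace Claimed.Agent.R324.Core

open Set Filter Topology MeasureTheory
open scoped ContDiff

/-- pointwise (N1), light version. -/
theorem nl_N1_pt (q : ℕ) (hq6 : 10 ^ 6 ≤ q) (g : Bg) (hg : BgGood q g) :
    ∃ C a₀ Λ₀ : ℝ, 0 ≤ C ∧ 0 < a₀ ∧ 0 < Λ₀ ∧ ∀ U V : Tri, (∀ j, Sm (U j)) → (∀ j, Sm (V j)) →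
      ∀ t ∈ Ico (-Λ₀) 0, ∀ a b : ℝ, 0 ≤ a → a ≤ a₀ → SupB q 30 U t a → SupB q 30 V t a → SupB q 30 (nlSub U V) t b →
      ∀ y ∈ Icc (-1 : ℝ) 1,
        nlSq q (nlSub (NN q g U) (NN q g V)) (t, y)
          ≤ C * ((a ^ 2 + (-t) ^ 6) * nlAa q g (nlSub U V) (t, y) + b ^ 2 * (nlAa q g U (t, y) + nlAa q g V (t, y))) := by
  obtain ⟨C₀, Λ₁, hC₀, hΛ₁, hN0⟩ := nl_N0 q hq6 g hg
  have hqR : (10 : ℝ) ^ 6 ≤ (q : ℝ) := by exact_mod_cast hq6
  have hq100 : (100 : ℝ) ≤ (q : ℝ) := by linarith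
  have hqpos : (0 : ℝ) < (q : ℝ) := by linarith
  obtain ⟨c, hc, hsup⟩ := nl_wt_sup (q : ℝ) hq100
  have hc12 : 0 < c / 12 := by positivity
  refine ⟨C₀ * (2 / c + 1), Real.sqrt (c / 12), min Λ₁ (100 / (q : ℝ)), by positivity, Real.sqrt_pos.2 hc12,
    lt_min hΛ₁ (by positivity), ?_⟩
  intro U V hU hV t ht a b ha haa hSU hSV hSD y hy
  have ht0 : t < 0 := ht.2
  have ht1 : -Λ₁ ≤ t := by
    have := ht.1
    have h2 := min_le_left Λ₁ (100 / (q : ℝ))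
    linarith
  have ht2 : -t ≤ 100 / (q : ℝ) := by
    have := ht.1
    have h2 := min_le_right Λ₁ (100 / (q : ℝ))
    linarith
  have ha2 : a ^ 2 ≤ c / 12 := by
    have h1 : a ^ 2 ≤ (Real.sqrt (c / 12)) ^ 2 := pow_le_pow_left₀ ha haa 2
    rwa [Real.sq_sqrt hc12.le] at h1
  have hsU := hsup U t a ht0 ht2 hSU y hy
  have hsV := hsup V t a ht0 ht2 hSV y hy
  have hsD := hsup (nlSub U V) t b ht0 ht2 hSD y hy
  have hU1 : nlSq q U (t, y) ≤ a ^ 2 / c := by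
    rw [le_div_iff₀ hc]
    linarith
  have hV1 : nlSq q V (t, y) ≤ a ^ 2 / c := by
    rw [le_div_iff₀ hc]
    linarith
  have hD1 : nlSq q (nlSub U V) (t, y) ≤ b ^ 2 / c := by
    rw [le_div_iff₀ hc]
    linarith
  have hac : a ^ 2 / c ≤ 1 / 12 := by
    rw [div_le_iff₀ hc]
    linarith
  have h0 := hN0 U V hU hV t ⟨ht1, ht0⟩ y hy (hU1.trans hac) (hV1.trans hac)
  have hD := nl_aa_nonneg q g (nlSub U V) (t, y)
  have hAU := nl_aa_nonneg q g U (t, y)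
  have hAV := nl_aa_nonneg q g V (t, y)
  have hL6 : 0 ≤ (-t) ^ 6 := by positivity
  have hcinv : 0 < 1 / c := by positivity
  refine h0.trans ?_
  rw [mul_assoc]
  refine mul_le_mul_of_nonneg_left ?_ hC₀
  have e1 : nlSq q U (t, y) + nlSq q V (t, y) + (-t) ^ 6 ≤ (2 / c + 1) * (a ^ 2 + (-t) ^ 6) := by
    have h3 : (2 / c + 1) * (a ^ 2 + (-t) ^ 6) = a ^ 2 / c + a ^ 2 / c + (-t) ^ 6 + (a ^ 2 + 2 * (1 / c) * (-t) ^ 6) := by
      field_simp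
      ring
    rw [h3]
    have h4 : 0 ≤ a ^ 2 + 2 * (1 / c) * (-t) ^ 6 := by positivity
    linarith
  have e2 : nlSq q (nlSub U V) (t, y) ≤ (2 / c + 1) * b ^ 2 := by
    have h3 : (2 / c + 1) * b ^ 2 = b ^ 2 / c + (b ^ 2 / c + b ^ 2) := by
      field_simp
      ring
    rw [h3]
    have h4 : 0 ≤ b ^ 2 / c + b ^ 2 := by positivity
    linarith
  calc (nlSq q U (t, y) + nlSq q V (t, y) + (-t) ^ 6) * nlAa q g (nlSub U V) (t, y)
        + nlSq q (nlSub U V) (t, y) * (nlAa q g U (t, y) + nlAa q g V (t, y))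
      ≤ ((2 / c + 1) * (a ^ 2 + (-t) ^ 6)) * nlAa q g (nlSub U V) (t, y)
        + ((2 / c + 1) * b ^ 2) * (nlAa q g U (t, y) + nlAa q g V (t, y)) :=
        add_le_add (mul_le_mul_of_nonneg_right e1 hD) (mul_le_mul_of_nonneg_right e2 (add_nonneg hAU hAV))
    _ = (2 / c + 1) * ((a ^ 2 + (-t) ^ 6) * nlAa q g (nlSub U V) (t, y)
        + b ^ 2 * (nlAa q g U (t, y) + nlAa q g V (t, y))) := by ring

/-- pointwise (N1), heavy version:  the factor `T³⁰/(R³√R)` is kept. -/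
theorem nl_N1_pt' (q : ℕ) (hq6 : 10 ^ 6 ≤ q) (g : Bg) (hg : BgGood q g) :
    ∃ C a₀ Λ₀ : ℝ, 0 ≤ C ∧ 0 < a₀ ∧ 0 < Λ₀ ∧ ∀ U V : Tri, (∀ j, Sm (U j)) → (∀ j, Sm (V j)) →
      ∀ t ∈ Ico (-Λ₀) 0, ∀ a b : ℝ, 0 ≤ a → a ≤ a₀ → SupB q 30 U t a → SupB q 30 V t a → SupB q 30 (nlSub U V) t b →
      ∀ y ∈ Icc (-1 : ℝ) 1,
        (rh2 q t y) ^ 3 * Real.sqrt (rh2 q t y) * nlSq q (nlSub (NN q g U) (NN q g V)) (t, y)
          ≤ C * ((a ^ 2 * (Th t y) ^ 30 + (rh2 q t y) ^ 3 * Real.sqrt (rh2 q t y) * (-t) ^ 6) * nlAa q g (nlSub U V) (t, y)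
            + b ^ 2 * (Th t y) ^ 30 * (nlAa q g U (t, y) + nlAa q g V (t, y))) := by
  obtain ⟨C₀, Λ₁, hC₀, hΛ₁, hN0⟩ := nl_N0 q hq6 g hg
  have hqR : (10 : ℝ) ^ 6 ≤ (q : ℝ) := by exact_mod_cast hq6
  have hq100 : (100 : ℝ) ≤ (q : ℝ) := by linarith
  have hqpos : (0 : ℝ) < (q : ℝ) := by linarith
  obtain ⟨c, hc, hsup⟩ := nl_wt_sup (q : ℝ) hq100
  have hc12 : 0 < c / 12 := by positivity
  refine ⟨2 * C₀, Real.sqrt (c / 12), min Λ₁ (100 / (q : ℝ)), by positivity, Real.sqrt_pos.2 hc12,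
    lt_min hΛ₁ (by positivity), ?_⟩
  intro U V hU hV t ht a b ha haa hSU hSV hSD y hy
  have ht0 : t < 0 := ht.2
  have ht1 : -Λ₁ ≤ t := by
    have := ht.1
    have h2 := min_le_left Λ₁ (100 / (q : ℝ))
    linarith
  have ht2 : -t ≤ 100 / (q : ℝ) := by
    have := ht.1
    have h2 := min_le_right Λ₁ (100 / (q : ℝ))
    linarith
  have ha2 : a ^ 2 ≤ c / 12 := by
    have h1 : a ^ 2 ≤ (Real.sqrt (c / 12)) ^ 2 := pow_le_pow_left₀ ha haa 2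
    rwa [Real.sq_sqrt hc12.le] at h1
  have hsU := hsup U t a ht0 ht2 hSU y hy
  have hsV := hsup V t a ht0 ht2 hSV y hy
  have hU1 : nlSq q U (t, y) ≤ 1 / 12 := by
    have h3 : c * nlSq q U (t, y) ≤ c * (1 / 12) := by linarith
    exact le_of_mul_le_mul_left h3 hc
  have hV1 : nlSq q V (t, y) ≤ 1 / 12 := by
    have h3 : c * nlSq q V (t, y) ≤ c * (1 / 12) := by linarith
    exact le_of_mul_le_mul_left h3 hc
  have h0 := hN0 U V hU hV t ⟨ht1, ht0⟩ y hy hU1 hV1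
  have hD := nl_aa_nonneg q g (nlSub U V) (t, y)
  have hAU := nl_aa_nonneg q g U (t, y)
  have hAV := nl_aa_nonneg q g V (t, y)
  have hL6 : 0 ≤ (-t) ^ 6 := by positivity
  have hR : 0 < rh2 q t y := w0_rh2_pos (by linarith) ht0 hy
  have hW : 0 ≤ (rh2 q t y) ^ 3 * Real.sqrt (rh2 q t y) := by positivity
  have hT : 0 ≤ (Th t y) ^ 30 := Even.pow_nonneg (by decide) _
  have wU : (rh2 q t y) ^ 3 * Real.sqrt (rh2 q t y) * nlSq q U (t, y) ≤ a ^ 2 * (Th t y) ^ 30 := hSU y hy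
  have wV : (rh2 q t y) ^ 3 * Real.sqrt (rh2 q t y) * nlSq q V (t, y) ≤ a ^ 2 * (Th t y) ^ 30 := hSV y hy
  have wD : (rh2 q t y) ^ 3 * Real.sqrt (rh2 q t y) * nlSq q (nlSub U V) (t, y) ≤ b ^ 2 * (Th t y) ^ 30 :=
    hSD y hy
  generalize (rh2 q t y) ^ 3 * Real.sqrt (rh2 q t y) = W at hW wU wV wD ⊢
  generalize (Th t y) ^ 30 = T at hT wU wV wD ⊢
  generalize nlSq q U (t, y) = sU at h0 wU
  generalize nlSq q V (t, y) = sV at h0 wV
  generalize nlSq q (nlSub U V) (t, y) = sD at h0 wD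
  generalize nlAa q g (nlSub U V) (t, y) = aD at h0 hD ⊢
  generalize nlAa q g U (t, y) = aU at h0 hAU ⊢
  generalize nlAa q g V (t, y) = aV at h0 hAV ⊢
  generalize (-t) ^ 6 = L at h0 hL6 ⊢
  generalize nlSq q (nlSub (NN q g U) (NN q g V)) (t, y) = N at h0 ⊢
  have h1 : W * N ≤ W * (C₀ * ((sU + sV + L) * aD + sD * (aU + aV))) := mul_le_mul_of_nonneg_left h0 hW
  refine h1.trans ?_
  have e0 : W * (C₀ * ((sU + sV + L) * aD + sD * (aU + aV)))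
      = C₀ * ((W * sU + W * sV + W * L) * aD + (W * sD) * (aU + aV)) := by ring
  rw [e0]
  have e1 : (W * sU + W * sV + W * L) * aD ≤ (2 * (a ^ 2 * T) + W * L) * aD :=
    mul_le_mul_of_nonneg_right (by linarith) hD
  have e2 : (W * sD) * (aU + aV) ≤ (b ^ 2 * T) * (aU + aV) :=
    mul_le_mul_of_nonneg_right wD (add_nonneg hAU hAV)
  have e3 : 0 ≤ (W * L) * aD := by positivity
  have e4 : 0 ≤ (b ^ 2 * T) * (aU + aV) := by positivity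
  have e5 : (W * sU + W * sV + W * L) * aD + (W * sD) * (aU + aV)
      ≤ 2 * ((a ^ 2 * T + W * L) * aD + b ^ 2 * T * (aU + aV)) := by nlinarith
  calc C₀ * ((W * sU + W * sV + W * L) * aD + (W * sD) * (aU + aV))
      ≤ C₀ * (2 * ((a ^ 2 * T + W * L) * aD + b ^ 2 * T * (aU + aV))) := mul_le_mul_of_nonneg_left e5 hC₀
    _ = 2 * C₀ * ((a ^ 2 * T + W * L) * aD + b ^ 2 * T * (aU + aV)) := by ring

end Claimed.Agent.R324.Core
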