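/-
Row 324 (S0582), PDE core, module NL (blueprint 7.5), architect helper232.      FILE Basic: algebra and smoothness of triples, the time cut-off.
PORT of R325/Core/NL/Smooth.lean (= Claimed/Agent/R325/Pk50.lean, lines 676-780).
Tools: Core/PR/Sm.lean (`Sm.add/sub/mul`, `Sm.hasDerivAt_t`, `Sm.hasDerivAt_y`, `Sm.dY`, `sm_of_t`), Core/PR/SmR.lean (`sm_Lt`, `sm_NN`), Core/PR/SmBg.lean (`BgSm.smRes`).
* `nl_thetaC_sm`:  `sm_of_t`;  tauOf t = -log(-t) is smooth on t < 0 (`ContDiffOn.log`, `contDiffOn_id.neg`);  `Real.smoothTransition.contDiff.comp_contDiffOn`.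
* `nl_thetaC_zero`:  t ≤ -exp(-τc) ⟹ exp(-τc) ≤ -t ⟹ -τc ≤ log(-t) (`Real.le_log_iff_exp_le`) ⟹ tauOf t - τc ≤ 0;  `Real.smoothTransition.zero_of_nonpos`.
* `nl_Lt_add`:  unfold Lt Lop nlAdd;  dY (U j + V j) = dY (U j) + dY (V j) at EVERY point (t,z), t < 0 (`Sm.hasDerivAt_y`, `HasDerivAt.add`, `dY_of_hasDerivAt`), hence also for dY (dY ..) (`dY_congr`: the functions z ↦ dY (..) (t,z) agree);  `Finset.sum_add_distrib`; ring.
* `nl_NN_zero`:  unfold NN;  `nl_Lt_zero`;  Rhs q g 0 = 0:  with U = 0 all of beF, h1F, h2F are the zero function, e1F = e2F = e3F = 1, bPh = 0, ggF = 0, GGF = 0 AS FUNCTIONS (funext; simp), so their dY vanish (`dY_const`);  then simp [Rhs, R1F, R2F, R3F, RbF, DD].   Do it component by component (`fin_cases j`).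
-/
import Claimed.Agent.R324.Core.NL.Defs

set_option autoImplicit false

namespace Claimed.Agent.R324.Core

open Set Filter Topology MeasureTheory
open scoped ContDiff

variable {q : ℝ} {g : Bg} {U V S : Tri} {t τc : ℝ}

theorem nl_sm_sub (hU : ∀ j, Sm (U j)) (hV : ∀ j, Sm (V j)) (j : Fin 3) : Sm (nlSub U V j) := (hU j).sub (hV j)

theorem nl_sm_add (hU : ∀ j, Sm (U j)) (hV : ∀ j, Sm (V j)) (j : Fin 3) : Sm (nlAdd U V j) := (hU j).add (hV j)

theorem nl_sm_zero (j : Fin 3) : Sm ((fun _ _ => 0 : Tri) j) := sm_const 0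

theorem nl_thetaC_sm (τc : ℝ) : Sm (fun p => thetaC τc p.1) := by
  refine sm_of_t (φ := thetaC τc) ?_
  have h1 : ContDiffOn ℝ ∞ (fun t : ℝ => tauOf t - τc) (Iio 0) := by
    unfold tauOf
    refine ((contDiffOn_id.neg.log (fun x hx => ?_)).neg).sub contDiffOn_const
    have : x < 0 := hx
    simp only [id]
    linarith
  exact Real.smoothTransition.contDiff.comp_contDiffOn h1

theorem nl_thetaC_zero (ht : t ≤ tOf τc) : thetaC τc t = 0 := by
  unfold tOf at ht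
  have h1 : Real.exp (-τc) ≤ -t := by linarith
  have h0 : 0 < -t := lt_of_lt_of_le (Real.exp_pos _) h1
  have h2 : -τc ≤ Real.log (-t) := (Real.le_log_iff_exp_le h0).2 h1
  unfold thetaC tauOf
  exact Real.smoothTransition.zero_of_nonpos (by linarith)

theorem nl_thetaC_nonneg (τc t : ℝ) : 0 ≤ thetaC τc t := Real.smoothTransition.nonneg _

theorem nl_thetaC_le_one (τc t : ℝ) : thetaC τc t ≤ 1 := Real.smoothTransition.le_one _

theorem nl_thetaC_sq_le_one (τc t : ℝ) : (thetaC τc t) ^ 2 ≤ 1 :=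
  pow_le_one₀ (nl_thetaC_nonneg τc t) (nl_thetaC_le_one τc t)

theorem nl_sm_cut (τc : ℝ) (hS : ∀ j, Sm (S j)) (j : Fin 3) : Sm (nlCut τc S j) := (nl_thetaC_sm τc).mul (hS j)

theorem nl_sm_res (hg : BgSm g) (q : ℝ) (j : Fin 3) : Sm (nlRes q g j) := (hg.smRes q j).neg

theorem nl_cut_zero (S : Tri) (j : Fin 3) (ht : t ≤ tOf τc) (y : ℝ) : nlCut τc S j (t, y) = 0 := by
  show thetaC τc t * S j (t, y) = 0
  rw [nl_thetaC_zero ht, zero_mul]

theorem nl_dT_add (hU : ∀ j, Sm (U j)) (hV : ∀ j, Sm (V j)) (ht : t < 0) (y : ℝ) (j : Fin 3) :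
    dT (nlAdd U V j) (t, y) = dT (U j) (t, y) + dT (V j) (t, y) :=
  dT_of_hasDerivAt (((hU j).hasDerivAt_t ht y).add ((hV j).hasDerivAt_t ht y))

theorem nl_Lt_add (q : ℝ) (g : Bg) (hU : ∀ j, Sm (U j)) (hV : ∀ j, Sm (V j)) (ht : t < 0) (y : ℝ) (j : Fin 3) :
    Lt q g (nlAdd U V) j (t, y) = Lt q g U j (t, y) + Lt q g V j (t, y) := by
  have h1 : dY (nlAdd U V j) (t, y) = dY (U j) (t, y) + dY (V j) (t, y) :=
    dY_add (hU j) (hV j) ht y
  have h2 : dY (dY (nlAdd U V j)) (t, y) = dY (dY (U j)) (t, y) + dY (dY (V j)) (t, y) := by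
    rw [← dY_add (hU j).dY (hV j).dY ht y]
    exact dY_congr (fun z => dY_add (hU j) (hV j) ht z) y
  simp only [Lt, Lop]
  rw [h1, h2]
  simp only [nlAdd]
  have h3 : ∑ k, facJ j k y * (bgR q g).cf q j k (t, y) * (U k (t, y) + V k (t, y))
      = ∑ k, facJ j k y * (bgR q g).cf q j k (t, y) * U k (t, y)
        + ∑ k, facJ j k y * (bgR q g).cf q j k (t, y) * V k (t, y) := by
    rw [← Finset.sum_add_distrib]
    exact Finset.sum_congr rfl (fun k _ => by ring)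
  rw [h3]
  ring

theorem nl_Lt_sub (q : ℝ) (g : Bg) (hU : ∀ j, Sm (U j)) (hV : ∀ j, Sm (V j)) (ht : t < 0) (y : ℝ) (j : Fin 3) :
    Lt q g (nlSub U V) j (t, y) = Lt q g U j (t, y) - Lt q g V j (t, y) := by
  have h1 : dY (nlSub U V j) (t, y) = dY (U j) (t, y) - dY (V j) (t, y) :=
    dY_sub (hU j) (hV j) ht y
  have h2 : dY (dY (nlSub U V j)) (t, y) = dY (dY (U j)) (t, y) - dY (dY (V j)) (t, y) := by
    rw [← dY_sub (hU j).dY (hV j).dY ht y]
    exact dY_congr (fun z => dY_sub (hU j) (hV j) ht z) y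
  simp only [Lt, Lop]
  rw [h1, h2]
  simp only [nlSub]
  have h3 : ∑ k, facJ j k y * (bgR q g).cf q j k (t, y) * (U k (t, y) - V k (t, y))
      = ∑ k, facJ j k y * (bgR q g).cf q j k (t, y) * U k (t, y)
        - ∑ k, facJ j k y * (bgR q g).cf q j k (t, y) * V k (t, y) := by
    rw [← Finset.sum_sub_distrib]
    exact Finset.sum_congr rfl (fun k _ => by ring)
  rw [h3]
  ring

theorem nl_dY_zero : dY (fun _ => (0 : ℝ)) = fun _ => 0 := funext fun p => dY_const 0 p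

theorem nl_Lt_zero (q : ℝ) (g : Bg) (j : Fin 3) (p : ℝ × ℝ) : Lt q g (fun _ _ => 0) j p = 0 := by
  simp only [Lt, Lop, nl_dY_zero]
  simp

theorem nl_NN_zero (q : ℝ) (g : Bg) (j : Fin 3) (p : ℝ × ℝ) : NN q g (fun _ _ => 0) j p = 0 := by
  have hd0 := nl_dY_zero
  have hDD0 : DD (fun _ => (0 : ℝ)) = fun _ => 0 := by
    funext p
    simp [DD, hd0]
  have hbe : beF (fun _ _ => 0) = fun _ => 0 := by
    funext p
    simp [beF]
  have hh1 : h1F q (fun _ _ => 0) = fun _ => 0 := by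
    funext p
    simp [h1F]
  have hh2 : h2F q (fun _ _ => 0) = fun _ => 0 := by
    funext p
    simp [h2F]
  have he1 : e1F q (fun _ _ => 0) = fun _ => 1 := by
    funext p
    simp [e1F, hh1]
  have he2 : e2F q (fun _ _ => 0) = fun _ => 1 := by
    funext p
    simp [e2F, hh2]
  have he3 : e3F (fun _ _ => 0) = fun _ => 1 := by
    funext p
    simp [e3F]
  have hbP : bPh q (fun _ _ => 0) = fun _ => 0 := by
    funext p
    simp [bPh]
  have hgg : ggF q g (fun _ _ => 0) = fun _ => 0 := by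
    funext p
    simp [ggF, he1, he3]
  have hGG : GGF q g (fun _ _ => 0) = fun _ => 0 := by
    funext p
    simp [GGF, hgg, he2]
  have hR1 : R1F q g (fun _ _ => 0) p = 0 := by
    simp [R1F, hh1, hh2, he1, hbP, hgg, hGG, hd0, hDD0]
  have hR2 : R2F q g (fun _ _ => 0) p = 0 := by
    simp [R2F, hh2, he1, he2, hbP, hgg, hGG, hd0, hDD0]
  have hR3 : R3F q g (fun _ _ => 0) p = 0 := by
    simp [R3F, he1, he3, hGG, hd0, hDD0]
  have hRb : RbF q g (fun _ _ => 0) p = 0 := by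
    simp [RbF, hh1, hh2, he1, he2, hbP, hgg, hGG, hd0]
  have hR : Rhs q g (fun _ _ => 0) j p = 0 := by
    fin_cases j
    · simp [Rhs, hR1, hR2]
    · simp [Rhs, hR3]
    · simp [Rhs, hRb]
  unfold NN
  rw [hR, nl_Lt_zero, sub_zero]

end Claimed.Agent.R324.Core
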