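/-
Row 324 (S0582), PDE core, module NL (blueprint 7.5), architect helper232.      FILE Cont: continuity in time of the energies and dissipations of a smooth triple.
Tools:  `cl_II_contOn` (Core/CL/Gron.lean):  F continuous on {t<0} × [-1,1]  ⟹  t ↦ 𝕀[F(t,·)] continuous on {t<0};
        `w0_contDiffAt_wL`, `w0_contDiffAt_wH` (Core/W/WtS.lean): joint smoothness of the weights at (t,y), t < 0, y ∈ [-1,1]  (`ContDiffAt.continuousAt`, `ContinuousAt.continuousWithinAt`);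
        n2 q (slT S t) y is a polynomial in S j (t,y), y;     n2t q (slT S t) y is a polynomial in ttF (uT S j) (t,y)   (`tt_sl`, `uV_slT`, `n2t_eq_nk`;  `Sm.ttF`, `sm_uT`(Core/PR/TT.lean), `Sm.continuousOn`).
        (-t)^r is continuous on t < 0 (`Real.continuousAt_rpow_const`).
-/
import Claimed.Agent.R324.Core.NL.Defs
import Claimed.Agent.R324.Core.CL.Gron
import Claimed.Agent.R324.Core.CL.Wt

set_option autoImplicit false

namespace Claimed.Agent.R324.Core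

open Set Filter Topology MeasureTheory
open scoped ContDiff

variable {q Γ : ℝ} {S : Tri}

theorem nl_cont_n2 (q : ℝ) (hS : ∀ j, Sm (S j)) :
    ContinuousOn (fun p : ℝ × ℝ => n2 q (slT S p.1) p.2) (Iio (0 : ℝ) ×ˢ Icc (-1 : ℝ) 1) :=
  (cl_n2_sm q hS).1.continuousOn.mono (Set.prod_mono_right (Set.subset_univ _))

theorem nl_cont_n2t (q : ℝ) (hS : ∀ j, Sm (S j)) :
    ContinuousOn (fun p : ℝ × ℝ => n2t q (slT S p.1) p.2) (Iio (0 : ℝ) ×ˢ Icc (-1 : ℝ) 1) :=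
  (cl_n2_sm q hS).2.continuousOn.mono (Set.prod_mono_right (Set.subset_univ _))

theorem nl_cont_En_wL (a M : ℕ) (q Γ : ℝ) (hS : ∀ j, Sm (S j)) :
    ContinuousOn (fun t => En q (wL a M q Γ t) (slT S t)) (Iio 0) :=
  (cl_Di_contOn a M q Γ hS).2

theorem nl_cont_Di_wL (a M : ℕ) (q Γ : ℝ) (hS : ∀ j, Sm (S j)) :
    ContinuousOn (fun t => Di q (wL a M q Γ t) (slT S t)) (Iio 0) :=
  (cl_Di_contOn a M q Γ hS).1

theorem nl_cont_HY (q η : ℝ) (hS : ∀ j, Sm (S j)) : ContinuousOn (HY q η S) (Iio 0) := by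
  have hF : ContinuousOn (fun p : ℝ × ℝ => (1 - p.2 ^ 2) ^ 2 * wH 3 52 q p.1 p.2 * n2 q (slT S p.1) p.2)
      (Iio (0 : ℝ) ×ˢ Icc (-1 : ℝ) 1) :=
    ((((continuous_const.sub (continuous_snd.pow 2)).pow 2).continuousOn).mul (cl_wH_contOn 3 52 q)).mul
      (nl_cont_n2 q hS)
  have h1 : ContinuousOn (fun t : ℝ => (-t) ^ ((95 : ℝ) / 2 - 2 * η)) (Iio 0) := by
    refine ContinuousOn.rpow_const continuous_neg.continuousOn ?_
    intro t ht
    left
    have : t < 0 := ht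
    linarith
  exact h1.mul (cl_II_contOn hF)

theorem nl_cont_DY (q Γ : ℝ) (hS : ∀ j, Sm (S j)) : ContinuousOn (DY q Γ S) (Iio 0) :=
  nl_cont_Di_wL 4 30 q Γ hS

theorem nl_cont_D0 (q Γ : ℝ) (hS : ∀ j, Sm (S j)) : ContinuousOn (D0 q Γ S) (Iio 0) :=
  nl_cont_Di_wL 2 30 q Γ hS

theorem nl_cont_D1 {q : ℝ} (hq : 1 < q) {g : Bg} (hg : BgSm g) (Γ : ℝ) (hS : ∀ j, Sm (S j)) :
    ContinuousOn (D1 q g Γ S) (Iio 0) :=
  nl_cont_Di_wL 4 30 q Γ (sm_Lt hq hg hS)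

theorem nl_cont_DD {q : ℝ} (hq : 1 < q) {g : Bg} (hg : BgSm g) (Γ : ℝ) (hS : ∀ j, Sm (S j)) :
    ContinuousOn (nlDD q g Γ S) (Iio 0) :=
  (nl_cont_D0 q Γ hS).add (nl_cont_D1 hq hg Γ hS)

/-- a function continuous on `(-∞,0)` is interval integrable on `[a,b]`, `a, b < 0`. -/
theorem nl_intervalIntegrable {f : ℝ → ℝ} (hf : ContinuousOn f (Iio 0)) {a b : ℝ} (ha : a < 0)
    (hb : b < 0) : IntervalIntegrable f volume a b := by
  refine ContinuousOn.intervalIntegrable (hf.mono fun x hx => ?_)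
  exact lt_of_le_of_lt hx.2 (max_lt ha hb)

end Claimed.Agent.R324.Core
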