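/-
Row 324 (S0582), PDE core, module NL (blueprint 7.5), architect helper232.      FILE Quad: `En`, `Di` and the heavy form as quadratic forms of the slice.
PORT of R325/Core/NL/Quad.lean (= Claimed/Agent/R325/Pk50.lean, lines 5-216).
   En q V u = 𝕀[(1-y²) V n2 q u],    Di q V u = 𝕀[V (n2t q u + q n2 q u)],    n2, n2t: Core/Defs.lean;   n2 q u y = nk q (uV u · y), n2t q u y = nk q (tt (uV u ·) y)  (`n2_eq_nk`, `n2t_eq_nk`, Core/W/FormDefs.lean).
Tools: Core/W/Ibp.lean (`ii_mono`, `ii_add`, `ii_const_mul`, `ii_congr`, CI = ContinuousOn on [-1,1]), `ci_n2`, `ci_n2t` (Core/W), `SmI`, `tt_add`, `tt_const_mul`.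
* pointwise:  (a+b)² ≤ (1+l) a² + (1+1/l) b²  (l > 0)   [ (√l a - b/√l)² ≥ 0;  R325 `nl_sq_add_le` ];   so  n2 q (u+v) ≤ (1+l) n2 q u + (1+1/l) n2 q v, the same for n2t (tt is additive on differentiable functions; third component: (1-z²)(u₂+v₂) = (1-z²)u₂ + (1-z²)v₂).
-/
import Claimed.Agent.R324.Core.NL.Defs

set_option autoImplicit false

namespace Claimed.Agent.R324.Core

open Set Filter Topology MeasureTheory
open scoped ContDiff

variable {q l c : ℝ} {V : ℝ → ℝ} {u v : Fin 3 → ℝ → ℝ}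

theorem nl_quad_sq_add_le (hl : 0 < l) (a b : ℝ) : (a + b) ^ 2 ≤ (1 + l) * a ^ 2 + (1 + 1 / l) * b ^ 2 := by
  have e : (1 + l) * a ^ 2 + (1 + 1 / l) * b ^ 2 - (a + b) ^ 2 = (l * a - b) ^ 2 / l := by
    field_simp
    ring
  have h : 0 ≤ (l * a - b) ^ 2 / l := by positivity
  linarith

theorem nl_quad_nk_add_le (hq : 0 < q) (hl : 0 < l) (a0 a1 a2 b0 b1 b2 : ℝ) :
    (q + 1) * (a0 + b0) ^ 2 + 2 * (a1 + b1) ^ 2 + q / (q + 1) * (a2 + b2) ^ 2
      ≤ (1 + l) * ((q + 1) * a0 ^ 2 + 2 * a1 ^ 2 + q / (q + 1) * a2 ^ 2)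
        + (1 + 1 / l) * ((q + 1) * b0 ^ 2 + 2 * b1 ^ 2 + q / (q + 1) * b2 ^ 2) := by
  have hq1 : 0 ≤ q + 1 := by linarith
  have hq2 : 0 ≤ q / (q + 1) := by positivity
  have h0 := mul_le_mul_of_nonneg_left (nl_quad_sq_add_le hl a0 b0) hq1
  have h1 := mul_le_mul_of_nonneg_left (nl_quad_sq_add_le hl a1 b1) (by norm_num : (0 : ℝ) ≤ 2)
  have h2 := mul_le_mul_of_nonneg_left (nl_quad_sq_add_le hl a2 b2) hq2
  calc (q + 1) * (a0 + b0) ^ 2 + 2 * (a1 + b1) ^ 2 + q / (q + 1) * (a2 + b2) ^ 2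
      ≤ (q + 1) * ((1 + l) * a0 ^ 2 + (1 + 1 / l) * b0 ^ 2) + 2 * ((1 + l) * a1 ^ 2 + (1 + 1 / l) * b1 ^ 2)
        + q / (q + 1) * ((1 + l) * a2 ^ 2 + (1 + 1 / l) * b2 ^ 2) := by linarith
    _ = _ := by ring

theorem nl_quad_tt_const_mul (c : ℝ) (f : ℝ → ℝ) (y : ℝ) : tt (fun z => c * f z) y = c * tt f y := by
  rw [tt_apply, tt_apply, deriv_const_mul_field]
  ring

theorem nl_n2_add_le (hq : 0 < q) (hl : 0 < l) (u v : Fin 3 → ℝ → ℝ) (y : ℝ) :
    n2 q (fun j z => u j z + v j z) y ≤ (1 + l) * n2 q u y + (1 + 1 / l) * n2 q v y := by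
  have e : (1 - y ^ 2) * (u 2 y + v 2 y) = (1 - y ^ 2) * u 2 y + (1 - y ^ 2) * v 2 y := by ring
  unfold n2
  simp only [e]
  exact nl_quad_nk_add_le hq hl _ _ _ _ _ _

theorem nl_n2t_add_le (hq : 0 < q) (hl : 0 < l) (hu : ∀ j, SmI (u j)) (hv : ∀ j, SmI (v j)) {y : ℝ}
    (hy : y ∈ Icc (-1 : ℝ) 1) :
    n2t q (fun j z => u j z + v j z) y ≤ (1 + l) * n2t q u y + (1 + 1 / l) * n2t q v y := by
  have hX : SmI (fun z : ℝ => 1 - z ^ 2) := (smI_const 1).sub (smI_id.pow 2)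
  have e0 := tt_add ((hu 0).differentiableAt hy) ((hv 0).differentiableAt hy)
  have e1 := tt_add ((hu 1).differentiableAt hy) ((hv 1).differentiableAt hy)
  have e2 := tt_add ((hX.mul (hu 2)).differentiableAt hy) ((hX.mul (hv 2)).differentiableAt hy)
  have ef : (fun z => (1 - z ^ 2) * (u 2 z + v 2 z)) = fun z => (1 - z ^ 2) * u 2 z + (1 - z ^ 2) * v 2 z := by
    funext z
    ring
  unfold n2t
  simp only [ef, e0, e1, e2]
  exact nl_quad_nk_add_le hq hl _ _ _ _ _ _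

theorem nl_En_add_le (hq : 0 < q) (hV : ContinuousOn V (Icc (-1 : ℝ) 1)) (h0 : ∀ y ∈ Icc (-1 : ℝ) 1, 0 ≤ V y)
    (hu : ∀ j, SmI (u j)) (hv : ∀ j, SmI (v j)) (hl : 0 < l) :
    En q V (fun j z => u j z + v j z) ≤ (1 + l) * En q V u + (1 + 1 / l) * En q V v := by
  have hX : CI (fun z : ℝ => (1 - z ^ 2) * V z) :=
    (((smI_const 1).sub (smI_id.pow 2)).continuousOn).mul hV
  have huv : ∀ j, SmI (fun z => u j z + v j z) := fun j => (hu j).add (hv j)
  have c1 : CI (fun y => (1 - y ^ 2) * V y * n2 q u y) := hX.mul (ci_n2 hu)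
  have c2 : CI (fun y => (1 - y ^ 2) * V y * n2 q v y) := hX.mul (ci_n2 hv)
  have c3 : CI (fun y => (1 - y ^ 2) * V y * n2 q (fun j z => u j z + v j z) y) := hX.mul (ci_n2 huv)
  have c1' : CI (fun y => (1 + l) * ((1 - y ^ 2) * V y * n2 q u y)) := continuousOn_const.mul c1
  have c2' : CI (fun y => (1 + 1 / l) * ((1 - y ^ 2) * V y * n2 q v y)) := continuousOn_const.mul c2
  unfold En
  rw [← ii_const_mul, ← ii_const_mul, ← ii_add c1' c2']
  refine ii_mono c3 (c1'.add c2') (fun y hy => ?_)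
  have hw : 0 ≤ (1 - y ^ 2) * V y := by
    have : 0 ≤ 1 - y ^ 2 := by nlinarith [hy.1, hy.2]
    exact mul_nonneg this (h0 y hy)
  have h := mul_le_mul_of_nonneg_left (nl_n2_add_le hq hl u v y) hw
  calc (1 - y ^ 2) * V y * n2 q (fun j z => u j z + v j z) y
      ≤ (1 - y ^ 2) * V y * ((1 + l) * n2 q u y + (1 + 1 / l) * n2 q v y) := h
    _ = _ := by ring

theorem nl_Di_add_le (hq : 0 < q) (hV : ContinuousOn V (Icc (-1 : ℝ) 1)) (h0 : ∀ y ∈ Icc (-1 : ℝ) 1, 0 ≤ V y)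
    (hu : ∀ j, SmI (u j)) (hv : ∀ j, SmI (v j)) (hl : 0 < l) :
    Di q V (fun j z => u j z + v j z) ≤ (1 + l) * Di q V u + (1 + 1 / l) * Di q V v := by
  have huv : ∀ j, SmI (fun z => u j z + v j z) := fun j => (hu j).add (hv j)
  have c1 : CI (fun y => V y * (n2t q u y + q * n2 q u y)) :=
    hV.mul ((ci_n2t hu).add (continuousOn_const.mul (ci_n2 hu)))
  have c2 : CI (fun y => V y * (n2t q v y + q * n2 q v y)) :=
    hV.mul ((ci_n2t hv).add (continuousOn_const.mul (ci_n2 hv)))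
  have c3 : CI (fun y => V y * (n2t q (fun j z => u j z + v j z) y + q * n2 q (fun j z => u j z + v j z) y)) :=
    hV.mul ((ci_n2t huv).add (continuousOn_const.mul (ci_n2 huv)))
  have c1' : CI (fun y => (1 + l) * (V y * (n2t q u y + q * n2 q u y))) := continuousOn_const.mul c1
  have c2' : CI (fun y => (1 + 1 / l) * (V y * (n2t q v y + q * n2 q v y))) := continuousOn_const.mul c2
  unfold Di
  rw [← ii_const_mul, ← ii_const_mul, ← ii_add c1' c2']
  refine ii_mono c3 (c1'.add c2') (fun y hy => ?_)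
  have ha := nl_n2t_add_le hq hl hu hv hy
  have hb := mul_le_mul_of_nonneg_left (nl_n2_add_le hq hl u v y) hq.le
  have h := mul_le_mul_of_nonneg_left (add_le_add ha hb) (h0 y hy)
  calc V y * (n2t q (fun j z => u j z + v j z) y + q * n2 q (fun j z => u j z + v j z) y)
      ≤ V y * ((1 + l) * n2t q u y + (1 + 1 / l) * n2t q v y
          + q * ((1 + l) * n2 q u y + (1 + 1 / l) * n2 q v y)) := h
    _ = _ := by ring

theorem nl_n2_const_mul (q c : ℝ) (u : Fin 3 → ℝ → ℝ) (y : ℝ) : n2 q (fun j z => c * u j z) y = c ^ 2 * n2 q u y := by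
  unfold n2
  ring

/-- no smoothness needed: `deriv (fun z => c * f z) = c * deriv f` always (`deriv_const_mul_field`). -/
theorem nl_n2t_const_mul (q c : ℝ) (u : Fin 3 → ℝ → ℝ) (y : ℝ) : n2t q (fun j z => c * u j z) y = c ^ 2 * n2t q u y := by
  have ef : (fun z => (1 - z ^ 2) * (c * u 2 z)) = fun z => c * ((1 - z ^ 2) * u 2 z) := by
    funext z
    ring
  unfold n2t
  simp only [ef, nl_quad_tt_const_mul]
  ring

theorem nl_En_const_mul (q c : ℝ) (V : ℝ → ℝ) (u : Fin 3 → ℝ → ℝ) : En q V (fun j z => c * u j z) = c ^ 2 * En q V u := by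
  unfold En
  rw [← ii_const_mul]
  refine ii_congr (fun y _ => ?_)
  rw [nl_n2_const_mul]
  ring

theorem nl_Di_const_mul (q c : ℝ) (V : ℝ → ℝ) (u : Fin 3 → ℝ → ℝ) : Di q V (fun j z => c * u j z) = c ^ 2 * Di q V u := by
  unfold Di
  rw [← ii_const_mul]
  refine ii_congr (fun y _ => ?_)
  rw [nl_n2_const_mul, nl_n2t_const_mul]
  ring

theorem nl_En_zero (q : ℝ) (V : ℝ → ℝ) : En q V (fun _ _ => 0) = 0 := by
  have h := nl_En_const_mul q 0 V (fun _ _ => 0)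
  simpa using h

theorem nl_Di_zero (q : ℝ) (V : ℝ → ℝ) : Di q V (fun _ _ => 0) = 0 := by
  have h := nl_Di_const_mul q 0 V (fun _ _ => 0)
  simpa using h

end Claimed.Agent.R324.Core
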