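/-
Row 324 (S0582), PDE core, module NL (blueprint 7.5), architect helper232.      FILE XB: the balls `XB`, `YB`: monotonicity, zero, triangle inequality.
PORT of R325/Core/NL/XB.lean (= Claimed/Agent/R325/Pk50.lean, lines 782-951; the proofs carry over almost verbatim).      `XB.mono` is in Core/CL/Time.lean (not imported here: use `nl_XB_mono`).
Tools: NL/Quad.lean (`nl_En_add_le`, `nl_Di_add_le` with l = R'/R), NL/Basic.lean (`nl_Lt_add`, `nl_Lt_zero`), NL/Cont.lean (`nl_cont_D0`, `nl_cont_D1`, `nl_intervalIntegrable`),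
weights: V0 q Γ t = wL 2 30 q Γ t, V1 = wL 4 30:  continuity on [-1,1] and positivity from `w0_tb_wL` (TB.sm.continuousOn, TB.pos) or `w0_wL_pos`;   slices: `smI_slT`.
   slT (nlAdd U V) t = fun j z => slT U t j z + slT V t j z  (rfl);     slT (Lt q g (nlAdd U V)) t = ... by funext + `nl_Lt_add`.
-/
import Claimed.Agent.R324.Core.NL.Basic
import Claimed.Agent.R324.Core.NL.Quad
import Claimed.Agent.R324.Core.NL.Cont

set_option autoImplicit false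

namespace Claimed.Agent.R324.Core

open Set Filter Topology MeasureTheory
open scoped ContDiff

variable {q Γ η ts R R' : ℝ} {g : Bg} {U V S : Tri}

theorem nl_XB_mono (h : XB q g Γ ts R U) (h0 : 0 ≤ R) (hR : R ≤ R') : XB q g Γ ts R' U := by
  have hsq : R ^ 2 ≤ R' ^ 2 := pow_le_pow_left₀ h0 hR 2
  exact ⟨fun t ht => (h.e0 t ht).trans hsq, fun t ht => (h.e1 t ht).trans hsq,
    fun t ht => (h.d0 t ht).trans hsq, fun t ht => (h.d1 t ht).trans hsq⟩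

theorem nl_YB_mono (h : YB q Γ η ts R S) (h0 : 0 ≤ R) (hR : R ≤ R') : YB q Γ η ts R' S := by
  have hsq : R ^ 2 ≤ R' ^ 2 := pow_le_pow_left₀ h0 hR 2
  exact ⟨fun t ht => (h.dy t ht).trans hsq, fun t ht => (h.hy t ht).trans hsq⟩

theorem nl_XB_slT_Lt_zero (q : ℝ) (g : Bg) (t : ℝ) : slT (Lt q g (fun _ _ => 0)) t = fun _ _ => 0 := by
  funext j y
  exact nl_Lt_zero q g j (t, y)

theorem nl_XB_E0_zero (q Γ t : ℝ) : E0 q Γ (fun _ _ => 0) t = 0 := nl_En_zero q _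

theorem nl_XB_D0_zero (q Γ t : ℝ) : D0 q Γ (fun _ _ => 0) t = 0 := nl_Di_zero q _

theorem nl_XB_E1_zero (q : ℝ) (g : Bg) (Γ t : ℝ) : E1 q g Γ (fun _ _ => 0) t = 0 := by
  unfold E1
  rw [nl_XB_slT_Lt_zero]
  exact nl_En_zero q _

theorem nl_XB_D1_zero (q : ℝ) (g : Bg) (Γ t : ℝ) : D1 q g Γ (fun _ _ => 0) t = 0 := by
  unfold D1
  rw [nl_XB_slT_Lt_zero]
  exact nl_Di_zero q _

theorem nl_XB_zero (q : ℝ) (g : Bg) (Γ ts R : ℝ) : XB q g Γ ts R (fun _ _ => 0) := by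
  refine ⟨fun t _ => ?_, fun t _ => ?_, fun t _ => ?_, fun t _ => ?_⟩
  · rw [nl_XB_E0_zero]; exact sq_nonneg R
  · rw [nl_XB_E1_zero]; exact sq_nonneg R
  · simp only [nl_XB_D0_zero, intervalIntegral.integral_zero]; exact sq_nonneg R
  · simp only [nl_XB_D1_zero, intervalIntegral.integral_zero]; exact sq_nonneg R

theorem nl_DD_zero (q : ℝ) (g : Bg) (Γ t : ℝ) : nlDD q g Γ (fun _ _ => 0) t = 0 := by
  unfold nlDD
  rw [nl_XB_D0_zero, nl_XB_D1_zero, add_zero]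

theorem nl_XB_wL_cont (a M : ℕ) (hq : 1 < q) (hΓ : 0 ≤ Γ) {t : ℝ} (ht : t < 0) :
    ContinuousOn (wL a M q Γ t) (Icc (-1 : ℝ) 1) := by
  obtain ⟨C, _, h⟩ := w0_tb_wL a M
  exact fun y hy => ((h q Γ t hq hΓ ht).sm y hy).continuousAt.continuousWithinAt

theorem nl_XB_slT_Lt_add (q : ℝ) (g : Bg) (hU : ∀ j, Sm (U j)) (hV : ∀ j, Sm (V j)) {t : ℝ} (ht : t < 0) :
    slT (Lt q g (nlAdd U V)) t = fun j z => slT (Lt q g U) t j z + slT (Lt q g V) t j z := by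
  funext j z
  exact nl_Lt_add q g hU hV ht z j

/-- the choice `l = R'/R`. -/
theorem nl_XB_comb {a b c R R' : ℝ} (hR : 0 < R) (hR' : 0 < R')
    (h : ∀ l : ℝ, 0 < l → a ≤ (1 + l) * b + (1 + 1 / l) * c) (hb : b ≤ R ^ 2) (hc : c ≤ R' ^ 2) :
    a ≤ (R + R') ^ 2 := by
  have hl : 0 < R' / R := div_pos hR' hR
  have h1 := h (R' / R) hl
  have h2 : (1 + R' / R) * b ≤ (1 + R' / R) * R ^ 2 :=
    mul_le_mul_of_nonneg_left hb (by positivity)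
  have h3 : (1 + 1 / (R' / R)) * c ≤ (1 + 1 / (R' / R)) * R' ^ 2 :=
    mul_le_mul_of_nonneg_left hc (by positivity)
  have h4 : (1 + R' / R) * R ^ 2 + (1 + 1 / (R' / R)) * R' ^ 2 = (R + R') ^ 2 := by
    field_simp
    ring
  linarith

/-- integration of `F ≤ (1+l) G + (1+1/l) H` with `l = R'/R`. -/
theorem nl_int_add_le {F G H : ℝ → ℝ} (hF : ContinuousOn F (Iio 0)) (hG : ContinuousOn G (Iio 0))
    (hH : ContinuousOn H (Iio 0)) {R R' : ℝ} (hR : 0 < R) (hR' : 0 < R')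
    (h : ∀ s < 0, ∀ l : ℝ, 0 < l → F s ≤ (1 + l) * G s + (1 + 1 / l) * H s) {ts t : ℝ}
    (ht : t ∈ Ioo ts 0) (hG' : ∫ s in ts..t, G s ≤ R ^ 2) (hH' : ∫ s in ts..t, H s ≤ R' ^ 2) :
    ∫ s in ts..t, F s ≤ (R + R') ^ 2 := by
  have hts : ts < 0 := ht.1.trans ht.2
  have iF := nl_intervalIntegrable hF hts ht.2
  have iG := nl_intervalIntegrable hG hts ht.2
  have iH := nl_intervalIntegrable hH hts ht.2
  refine nl_XB_comb hR hR' (fun l hl => ?_) hG' hH'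
  have h1 : ∫ s in ts..t, F s ≤ ∫ s in ts..t, ((1 + l) * G s + (1 + 1 / l) * H s) :=
    intervalIntegral.integral_mono_on ht.1.le iF ((iG.const_mul _).add (iH.const_mul _))
      (fun s hs => h s (lt_of_le_of_lt hs.2 ht.2) l hl)
  rw [intervalIntegral.integral_add (iG.const_mul _) (iH.const_mul _),
    intervalIntegral.integral_const_mul, intervalIntegral.integral_const_mul] at h1
  exact h1

/-- fixed-time inequalities behind the triangle inequality. -/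
theorem nl_E0_add_le (hq : 1 < q) (hΓ : 0 ≤ Γ) (hU : ∀ j, Sm (U j)) (hV : ∀ j, Sm (V j)) {t l : ℝ} (ht : t < 0)
    (hl : 0 < l) : E0 q Γ (nlAdd U V) t ≤ (1 + l) * E0 q Γ U t + (1 + 1 / l) * E0 q Γ V t :=
  nl_En_add_le (by linarith) (nl_XB_wL_cont 2 30 hq hΓ ht) (fun _ hy => (w0_wL_pos hq hΓ ht hy).le)
    (smI_slT hU ht) (smI_slT hV ht) hl

theorem nl_E1_add_le (hq : 1 < q) (hg : BgSm g) (hΓ : 0 ≤ Γ) (hU : ∀ j, Sm (U j)) (hV : ∀ j, Sm (V j)) {t l : ℝ}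
    (ht : t < 0) (hl : 0 < l) :
    E1 q g Γ (nlAdd U V) t ≤ (1 + l) * E1 q g Γ U t + (1 + 1 / l) * E1 q g Γ V t := by
  unfold E1
  rw [nl_XB_slT_Lt_add q g hU hV ht]
  exact nl_En_add_le (by linarith) (nl_XB_wL_cont 4 30 hq hΓ ht) (fun _ hy => (w0_wL_pos hq hΓ ht hy).le)
    (smI_slT (sm_Lt hq hg hU) ht) (smI_slT (sm_Lt hq hg hV) ht) hl

theorem nl_D0_add_le (hq : 1 < q) (hΓ : 0 ≤ Γ) (hU : ∀ j, Sm (U j)) (hV : ∀ j, Sm (V j)) {t l : ℝ} (ht : t < 0)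
    (hl : 0 < l) : D0 q Γ (nlAdd U V) t ≤ (1 + l) * D0 q Γ U t + (1 + 1 / l) * D0 q Γ V t :=
  nl_Di_add_le (by linarith) (nl_XB_wL_cont 2 30 hq hΓ ht) (fun _ hy => (w0_wL_pos hq hΓ ht hy).le)
    (smI_slT hU ht) (smI_slT hV ht) hl

theorem nl_D1_add_le (hq : 1 < q) (hg : BgSm g) (hΓ : 0 ≤ Γ) (hU : ∀ j, Sm (U j)) (hV : ∀ j, Sm (V j)) {t l : ℝ}
    (ht : t < 0) (hl : 0 < l) :
    D1 q g Γ (nlAdd U V) t ≤ (1 + l) * D1 q g Γ U t + (1 + 1 / l) * D1 q g Γ V t := by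
  unfold D1
  rw [nl_XB_slT_Lt_add q g hU hV ht]
  exact nl_Di_add_le (by linarith) (nl_XB_wL_cont 4 30 hq hΓ ht) (fun _ hy => (w0_wL_pos hq hΓ ht hy).le)
    (smI_slT (sm_Lt hq hg hU) ht) (smI_slT (sm_Lt hq hg hV) ht) hl

/-- **triangle inequality in `𝒳`.** -/
theorem nl_XB_add (hq : 1 < q) (hg : BgSm g) (hΓ : 0 ≤ Γ) (hR : 0 < R) (hR' : 0 < R')
    (hU : ∀ j, Sm (U j)) (hV : ∀ j, Sm (V j)) (h : XB q g Γ ts R U) (h' : XB q g Γ ts R' V) :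
    XB q g Γ ts (R + R') (nlAdd U V) := by
  have hUV := nl_sm_add hU hV
  refine ⟨fun t ht => ?_, fun t ht => ?_, fun t ht => ?_, fun t ht => ?_⟩
  · exact nl_XB_comb hR hR' (fun l hl => nl_E0_add_le hq hΓ hU hV ht.2 hl) (h.e0 t ht) (h'.e0 t ht)
  · exact nl_XB_comb hR hR' (fun l hl => nl_E1_add_le hq hg hΓ hU hV ht.2 hl) (h.e1 t ht) (h'.e1 t ht)
  · exact nl_int_add_le (nl_cont_D0 q Γ hUV) (nl_cont_D0 q Γ hU) (nl_cont_D0 q Γ hV) hR hR'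
      (fun s hs l hl => nl_D0_add_le hq hΓ hU hV hs hl) ht (h.d0 t ht) (h'.d0 t ht)
  · exact nl_int_add_le (nl_cont_D1 hq hg Γ hUV) (nl_cont_D1 hq hg Γ hU) (nl_cont_D1 hq hg Γ hV) hR hR'
      (fun s hs l hl => nl_D1_add_le hq hg hΓ hU hV hs hl) ht (h.d1 t ht) (h'.d1 t ht)

end Claimed.Agent.R324.Core
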