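/-
Row 324 (S0582), PDE core, module NL (blueprint 7.5), architect helper232.      FILE N1a: (N1a), the light norm of the difference of the nonlinear terms, static.
   DY q Γ S t = Di q (V1 q Γ t) (slT S t) = 𝕀[V₁ (n2t + q n2)(S)] ≤ q 𝕀[V₁ nlSq q S (t,·)]     (q ≥ 1, V₁ ≥ 0).
   `nl_N1_pt` pointwise, `ii_mono`, `ii_add`, `ii_const_mul`, then `nl_atoms` three times (for nlSub U V, U, V).      nlQ: Core/NL/Defs.lean.
   Continuity of the integrands: `nl_ci_sq`, `nl_ci_aa`, V₁: `w0_tb_wL` (.sm.continuousOn, .pos);   smoothness of NN: `sm_NN`, `nl_sm_sub`.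
   `nl_N1a_zero` (= cl_need_nn of Core/CL/Need.lean):  V = 0, b = a;  `nl_NN_zero`, `nl_DD_zero`;  nlSub U 0 = U (funext; simp [nlSub]);  SupB of 0 is trivial (n2 = n2t = 0: `nl_n2_const_mul` with c = 0 or simp).
-/
import Claimed.Agent.R324.Core.NL.N1p
import Claimed.Agent.R324.Core.NL.XB

set_option autoImplicit false

namespace Claimed.Agent.R324.Core

open Set Filter Topology MeasureTheory
open scoped ContDiff

/-- linearity of `𝕀` for three terms. -/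
theorem nl_ii_lin3 {f₁ f₂ f₃ : ℝ → ℝ} (h₁ : CI f₁) (h₂ : CI f₂) (h₃ : CI f₃) (c₁ c₂ c₃ : ℝ) :
    II (fun y => c₁ * f₁ y + c₂ * f₂ y + c₃ * f₃ y) = c₁ * II f₁ + c₂ * II f₂ + c₃ * II f₃ := by
  have e₁ : CI (fun y => c₁ * f₁ y) := continuousOn_const.mul h₁
  have e₂ : CI (fun y => c₂ * f₂ y) := continuousOn_const.mul h₂
  have e₃ : CI (fun y => c₃ * f₃ y) := continuousOn_const.mul h₃
  have e₁₂ : CI (fun y => c₁ * f₁ y + c₂ * f₂ y) := e₁.add e₂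
  rw [ii_add e₁₂ e₃, ii_add e₁ e₂, ii_const_mul, ii_const_mul, ii_const_mul]

/-- continuity of `V₁ aa(U)`. -/
theorem nl_ci_V1aa {q : ℝ} (hq : 1 < q) {g : Bg} (hg : BgSm g) {Γ : ℝ} (hΓ : 0 ≤ Γ) {U : Tri} (hU : ∀ j, Sm (U j))
    {t : ℝ} (ht : t < 0) : CI (fun y => V1 q Γ t y * nlAa q g U (t, y)) := by
  obtain ⟨C, -, hC⟩ := w0_tb_wL 4 30
  exact (hC q Γ t hq hΓ ht).sm.continuousOn.mul (nl_ci_aa hq hg hU ht)

theorem nl_V1_pos {q : ℝ} (hq : 1 < q) {Γ : ℝ} (hΓ : 0 ≤ Γ) {t : ℝ} (ht : t < 0) {y : ℝ} (hy : y ∈ Icc (-1 : ℝ) 1) :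
    0 < V1 q Γ t y := by
  obtain ⟨C, -, hC⟩ := w0_tb_wL 4 30
  exact (hC q Γ t hq hΓ ht).pos y hy

theorem nl_ci_V1 {q : ℝ} (hq : 1 < q) {Γ : ℝ} (hΓ : 0 ≤ Γ) {t : ℝ} (ht : t < 0) : CI (V1 q Γ t) := by
  obtain ⟨C, -, hC⟩ := w0_tb_wL 4 30
  exact (hC q Γ t hq hΓ ht).sm.continuousOn

/-- **(N1a).** -/
theorem nl_N1a (q : ℕ) (hq6 : 10 ^ 6 ≤ q) (g : Bg) (hg : BgGood q g) (Γ : ℝ) (hΓ : 0 ≤ Γ) :
    ∃ C a₀ Λ₀ : ℝ, 0 ≤ C ∧ 0 < a₀ ∧ 0 < Λ₀ ∧ ∀ U V : Tri, (∀ j, Sm (U j)) → (∀ j, Sm (V j)) →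
      ∀ t ∈ Ico (-Λ₀) 0, ∀ a b : ℝ, 0 ≤ a → a ≤ a₀ → SupB q 30 U t a → SupB q 30 V t a → SupB q 30 (nlSub U V) t b →
        DY q Γ (nlSub (NN q g U) (NN q g V)) t ≤ C * nlQ q g Γ a b U V t := by
  obtain ⟨C₁, a₀, Λ₁, hC₁, ha₀, hΛ₁, H₁⟩ := nl_N1_pt q hq6 g hg
  obtain ⟨C₂, Λ₂, hC₂, hΛ₂, H₂⟩ := nl_atoms q hq6 g hg Γ hΓ
  have hqR : (10 : ℝ) ^ 6 ≤ (q : ℝ) := by exact_mod_cast hq6
  have hq1 : (1 : ℝ) < q := by linarith
  have hq0 : (0 : ℝ) < q := by linarith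
  refine ⟨q * C₁ * C₂, a₀, min Λ₁ Λ₂, by positivity, ha₀, lt_min hΛ₁ hΛ₂, ?_⟩
  intro U V hU hV t ht a b ha ha' sU sV sD
  have ht0 : t < 0 := ht.2
  have ht₁ : t ∈ Ico (-Λ₁) 0 := ⟨by linarith [ht.1, min_le_left Λ₁ Λ₂], ht0⟩
  have ht₂ : t ∈ Ico (-Λ₂) 0 := ⟨by linarith [ht.1, min_le_right Λ₁ Λ₂], ht0⟩
  have hD : ∀ j, Sm (nlSub U V j) := nl_sm_sub hU hV
  have hS : ∀ j, Sm (nlSub (NN q g U) (NN q g V) j) :=
    nl_sm_sub (sm_NN hq1 hg.sm hU) (sm_NN hq1 hg.sm hV)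
  have hSI := smI_slT hS ht0
  have cD := nl_ci_V1aa hq1 hg.sm hΓ hD ht0
  have cU := nl_ci_V1aa hq1 hg.sm hΓ hU ht0
  have cV := nl_ci_V1aa hq1 hg.sm hΓ hV ht0
  set c₁ : ℝ := q * C₁ * (a ^ 2 + (-t) ^ 6) with hc₁
  set c₂ : ℝ := q * C₁ * b ^ 2 with hc₂
  have hc₁0 : 0 ≤ c₁ := by
    have : 0 ≤ (-t) ^ 6 := by positivity
    positivity
  have hc₂0 : 0 ≤ c₂ := by positivity
  have key : DY q Γ (nlSub (NN q g U) (NN q g V)) t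
      ≤ II (fun y => c₁ * (V1 q Γ t y * nlAa q g (nlSub U V) (t, y)) + c₂ * (V1 q Γ t y * nlAa q g U (t, y))
          + c₂ * (V1 q Γ t y * nlAa q g V (t, y))) := by
    unfold DY Di
    apply ii_mono
    · exact (nl_ci_V1 hq1 hΓ ht0).mul ((ci_n2t hSI).add (continuousOn_const.mul (ci_n2 hSI)))
    · exact ((continuousOn_const.mul cD).add (continuousOn_const.mul cU)).add (continuousOn_const.mul cV)
    · intro y hy
      have hV1 := (nl_V1_pos hq1 hΓ ht0 hy).le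
      have h1 := H₁ U V hU hV t ht₁ a b ha ha' sU sV sD y hy
      have e1 := n2_nonneg hq0 (slT (nlSub (NN q g U) (NN q g V)) t) y
      have e2 := n2t_nonneg hq0 (slT (nlSub (NN q g U) (NN q g V)) t) y
      have h2 : n2t q (slT (nlSub (NN q g U) (NN q g V)) t) y + q * n2 q (slT (nlSub (NN q g U) (NN q g V)) t) y
          ≤ q * nlSq q (nlSub (NN q g U) (NN q g V)) (t, y) := by
        show _ ≤ (q : ℝ) * (n2 q (slT (nlSub (NN q g U) (NN q g V)) t) y + n2t q (slT (nlSub (NN q g U) (NN q g V)) t) y)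
        nlinarith
      have h3 : (q : ℝ) * nlSq q (nlSub (NN q g U) (NN q g V)) (t, y)
          ≤ q * (C₁ * ((a ^ 2 + (-t) ^ 6) * nlAa q g (nlSub U V) (t, y)
            + b ^ 2 * (nlAa q g U (t, y) + nlAa q g V (t, y)))) := mul_le_mul_of_nonneg_left h1 hq0.le
      calc V1 q Γ t y * (n2t q (slT (nlSub (NN q g U) (NN q g V)) t) y
            + q * n2 q (slT (nlSub (NN q g U) (NN q g V)) t) y)
          ≤ V1 q Γ t y * (q * (C₁ * ((a ^ 2 + (-t) ^ 6) * nlAa q g (nlSub U V) (t, y)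
            + b ^ 2 * (nlAa q g U (t, y) + nlAa q g V (t, y))))) :=
            mul_le_mul_of_nonneg_left (h2.trans h3) hV1
        _ = _ := by rw [hc₁, hc₂]; ring
  rw [nl_ii_lin3 cD cU cV] at key
  have aD := H₂ (nlSub U V) hD t ht₂
  have aU := H₂ U hU t ht₂
  have aV := H₂ V hV t ht₂
  have b1 := mul_le_mul_of_nonneg_left aD hc₁0
  have b2 := mul_le_mul_of_nonneg_left aU hc₂0
  have b3 := mul_le_mul_of_nonneg_left aV hc₂0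
  calc DY q Γ (nlSub (NN q g U) (NN q g V)) t
      ≤ c₁ * (C₂ * nlDD q g Γ (nlSub U V) t) + c₂ * (C₂ * nlDD q g Γ U t) + c₂ * (C₂ * nlDD q g Γ V t) := by
        linarith
    _ = q * C₁ * C₂ * nlQ q g Γ a b U V t := by
        rw [hc₁, hc₂]; unfold nlQ; ring

theorem nl_Di_nonneg {q : ℝ} (hq : 0 < q) {W : ℝ → ℝ} (hW : ∀ y ∈ Icc (-1 : ℝ) 1, 0 ≤ W y) (u : Fin 3 → ℝ → ℝ) :
    0 ≤ Di q W u := by
  unfold Di
  apply ii_nonneg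
  intro y hy
  exact mul_nonneg (hW y hy) (add_nonneg (n2t_nonneg hq u y) (mul_nonneg hq.le (n2_nonneg hq u y)))

theorem nl_DD_nonneg {q : ℝ} (hq : 1 < q) (g : Bg) {Γ : ℝ} (hΓ : 0 ≤ Γ) (U : Tri) {t : ℝ} (ht : t < 0) :
    0 ≤ nlDD q g Γ U t := by
  have hq0 : 0 < q := by linarith
  unfold nlDD D0 D1
  exact add_nonneg (nl_Di_nonneg hq0 (fun y hy => (w0_wL_pos hq hΓ ht hy).le) _)
    (nl_Di_nonneg hq0 (fun y hy => (w0_wL_pos hq hΓ ht hy).le) _)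

theorem nl_SupB_zero (q : ℝ) (t a : ℝ) : SupB q 30 (fun _ _ => 0) t a := by
  intro y _
  have h1 : n2 q (slT (fun _ _ => 0) t) y = 0 := by simp [n2, slT]
  have h0 : ∀ j : Fin 3, slT (fun _ _ => 0) t j = fun _ => (0 : ℝ) := fun j => rfl
  have h2 : n2t q (slT (fun _ _ => 0) t) y = 0 := by
    unfold n2t
    simp only [h0, mul_zero, tt_const]
    norm_num
  rw [h1, h2]
  have : 0 ≤ (Th t y) ^ 30 := Even.pow_nonneg (by decide) _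
  have : 0 ≤ a ^ 2 * (Th t y) ^ 30 := by positivity
  simpa using this

/-- (N1a) with `V = 0`. -/
theorem nl_N1a_zero (q : ℕ) (hq6 : 10 ^ 6 ≤ q) (g : Bg) (hg : BgGood q g) (Γ : ℝ) (hΓ : 0 ≤ Γ) :
    ∃ C a₀ Λ₀ : ℝ, 0 ≤ C ∧ 0 < a₀ ∧ 0 < Λ₀ ∧ ∀ U : Tri, (∀ j, Sm (U j)) → ∀ t ∈ Ico (-Λ₀) 0, ∀ a : ℝ, 0 ≤ a → a ≤ a₀ →
      SupB q 30 U t a →
      DY q Γ (NN q g U) t ≤ C * (a ^ 2 + (-t) ^ 6) * (D0 q Γ U t + D1 q g Γ U t) := by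
  obtain ⟨C, a₀, Λ₀, hC, ha₀, hΛ₀, H⟩ := nl_N1a q hq6 g hg Γ hΓ
  have hqR : (10 : ℝ) ^ 6 ≤ (q : ℝ) := by exact_mod_cast hq6
  have hq1 : (1 : ℝ) < q := by linarith
  refine ⟨2 * C, a₀, Λ₀, by positivity, ha₀, hΛ₀, ?_⟩
  intro U hU t ht a ha ha' sU
  have e1 : nlSub U (fun _ _ => 0) = U := by
    funext j p; simp [nlSub]
  have e2 : nlSub (NN q g U) (NN q g (fun _ _ => 0)) = NN q g U := by
    funext j p; simp [nlSub, nl_NN_zero]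
  have h := H U (fun _ _ => 0) hU nl_sm_zero t ht a a ha ha' sU (nl_SupB_zero q t a) (by rw [e1]; exact sU)
  rw [e2] at h
  unfold nlQ at h
  rw [e1, nl_DD_zero] at h
  have hDD := nl_DD_nonneg hq1 g hΓ U ht.2
  have hL : 0 ≤ (-t) ^ 6 := by
    have : 0 < -t := by linarith [ht.2]
    positivity
  have hfin : (a ^ 2 + (-t) ^ 6) * nlDD q g Γ U t + a ^ 2 * (nlDD q g Γ U t + 0)
      ≤ 2 * ((a ^ 2 + (-t) ^ 6) * nlDD q g Γ U t) := by nlinarith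
  calc DY q Γ (NN q g U) t ≤ C * ((a ^ 2 + (-t) ^ 6) * nlDD q g Γ U t + a ^ 2 * (nlDD q g Γ U t + 0)) := h
    _ ≤ C * (2 * ((a ^ 2 + (-t) ^ 6) * nlDD q g Γ U t)) := mul_le_mul_of_nonneg_left hfin hC
    _ = 2 * C * (a ^ 2 + (-t) ^ 6) * (D0 q Γ U t + D1 q g Γ U t) := by unfold nlDD; ring

end Claimed.Agent.R324.Core
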