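/-
Row 324 (S0582), PDE core, module NL (blueprint 7.5), architect helper232.      FILE N1b: (N1b), the heavy norm of the difference of the nonlinear terms, static.
   HY q η S t = Λ^{95/2-2η} 𝕀[(1-y²)² wH 3 52 n2 q (slT S t)],    n2 ≤ nlSq.
   Pointwise, with w := Λ^{95/2-2η} (1-y²)² wH 3 52 q t y ≥ 0,  ρ := R³√R > 0:      ρ w nlSq(dN) ≤ w C ((a² T³⁰ + ρ Λ⁶) aa(d) + b² T³⁰ (aa U + aa V))      (`nl_N1_pt'`),
        w T³⁰ ≤ C₁ ρ V₁ (`nl_wt_heavy`),    w Λ⁶ ≤ C₂ Λ⁴ V₁ (`nl_wt_heavy0`)      ⟹   w nlSq(dN) ≤ C (C₁+C₂) V₁ ((a² + Λ⁴) aa(d) + b² (aa U + aa V))     (divide by ρ > 0).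
   Then `ii_mono`, `ii_add`, `ii_const_mul` + `nl_atoms` (three times).      Continuity of the integrands: `nl_cont_n2`-type facts at fixed t: `ci_n2`, `nl_ci_aa`, weights `w0_tb_wH`, `w0_tb_wL`.
-/
import Claimed.Agent.R324.Core.NL.N1p
import Claimed.Agent.R324.Core.NL.XB
import Claimed.Agent.R324.Core.NL.N1a

set_option autoImplicit false

namespace Claimed.Agent.R324.Core

open Set Filter Topology MeasureTheory
open scoped ContDiff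

/-- the pointwise algebra of (N1b). -/
theorem nl_N1b_alg {ρ w N T L6 L4 Ad AU AV v a2 b2 C₁ Ch C0 : ℝ} (hρ : 0 < ρ) (hw : 0 ≤ w) (hL4 : 0 ≤ L4)
    (hAd : 0 ≤ Ad) (hAU : 0 ≤ AU) (hAV : 0 ≤ AV) (hv : 0 ≤ v) (ha2 : 0 ≤ a2) (hb2 : 0 ≤ b2)
    (hC₁ : 0 ≤ C₁) (hCh : 0 ≤ Ch) (hC0 : 0 ≤ C0)
    (h1 : ρ * N ≤ C₁ * ((a2 * T + ρ * L6) * Ad + b2 * T * (AU + AV)))
    (h2 : w * T ≤ Ch * ρ * v) (h3 : w * L6 ≤ C0 * L4 * v) :
    w * N ≤ C₁ * (Ch + C0) * (v * ((a2 + L4) * Ad + b2 * (AU + AV))) := by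
  have s1 : w * (ρ * N) ≤ w * (C₁ * ((a2 * T + ρ * L6) * Ad + b2 * T * (AU + AV))) :=
    mul_le_mul_of_nonneg_left h1 hw
  have s2 : w * (C₁ * ((a2 * T + ρ * L6) * Ad + b2 * T * (AU + AV)))
      = C₁ * ((a2 * (w * T) + ρ * (w * L6)) * Ad + b2 * (w * T) * (AU + AV)) := by ring
  have t1 : a2 * (w * T) ≤ a2 * (Ch * ρ * v) := mul_le_mul_of_nonneg_left h2 ha2
  have t2 : ρ * (w * L6) ≤ ρ * (C0 * L4 * v) := mul_le_mul_of_nonneg_left h3 hρ.le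
  have t3 : b2 * (w * T) ≤ b2 * (Ch * ρ * v) := mul_le_mul_of_nonneg_left h2 hb2
  have t4 : (a2 * (w * T) + ρ * (w * L6)) * Ad ≤ (a2 * (Ch * ρ * v) + ρ * (C0 * L4 * v)) * Ad :=
    mul_le_mul_of_nonneg_right (add_le_add t1 t2) hAd
  have t5 : b2 * (w * T) * (AU + AV) ≤ b2 * (Ch * ρ * v) * (AU + AV) :=
    mul_le_mul_of_nonneg_right t3 (add_nonneg hAU hAV)
  have s3 : C₁ * ((a2 * (w * T) + ρ * (w * L6)) * Ad + b2 * (w * T) * (AU + AV))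
      ≤ C₁ * ((a2 * (Ch * ρ * v) + ρ * (C0 * L4 * v)) * Ad + b2 * (Ch * ρ * v) * (AU + AV)) :=
    mul_le_mul_of_nonneg_left (add_le_add t4 t5) hC₁
  have s4 : ρ * (C₁ * (Ch + C0) * (v * ((a2 + L4) * Ad + b2 * (AU + AV))))
      - C₁ * ((a2 * (Ch * ρ * v) + ρ * (C0 * L4 * v)) * Ad + b2 * (Ch * ρ * v) * (AU + AV))
      = ρ * C₁ * v * ((Ch * L4 + C0 * a2) * Ad + C0 * b2 * (AU + AV)) := by ring
  have s5 : 0 ≤ ρ * C₁ * v * ((Ch * L4 + C0 * a2) * Ad + C0 * b2 * (AU + AV)) := by positivity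
  have s6 : ρ * (w * N) ≤ ρ * (C₁ * (Ch + C0) * (v * ((a2 + L4) * Ad + b2 * (AU + AV)))) := by
    have : ρ * (w * N) = w * (ρ * N) := by ring
    linarith
  exact le_of_mul_le_mul_left s6 hρ

/-- **(N1b).**   (`Λ⁴` instead of `Λ⁶`.) -/
theorem nl_N1b (q : ℕ) (hq6 : 10 ^ 6 ≤ q) (g : Bg) (hg : BgGood q g) (Γ : ℝ) (hΓ : 0 ≤ Γ) :
    ∃ C a₀ Λ₀ : ℝ, 0 ≤ C ∧ 0 < a₀ ∧ 0 < Λ₀ ∧ ∀ η : ℝ, η ≤ 139 / 10 → ∀ U V : Tri, (∀ j, Sm (U j)) → (∀ j, Sm (V j)) →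
      ∀ t ∈ Ico (-Λ₀) 0, ∀ a b : ℝ, 0 ≤ a → a ≤ a₀ → SupB q 30 U t a → SupB q 30 V t a → SupB q 30 (nlSub U V) t b →
        HY q η (nlSub (NN q g U) (NN q g V)) t
          ≤ C * ((a ^ 2 + (-t) ^ 4) * nlDD q g Γ (nlSub U V) t + b ^ 2 * (nlDD q g Γ U t + nlDD q g Γ V t)) := by
  have hqR : (10 : ℝ) ^ 6 ≤ (q : ℝ) := by exact_mod_cast hq6
  have hq1 : (1 : ℝ) < q := by linarith
  have hq0 : (0 : ℝ) < q := by linarith
  obtain ⟨C₁, a₀, Λ₁, hC₁, ha₀, hΛ₁, H₁⟩ := nl_N1_pt' q hq6 g hg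
  obtain ⟨C₂, Λ₂, hC₂, hΛ₂, H₂⟩ := nl_atoms q hq6 g hg Γ hΓ
  obtain ⟨Ch, hCh, Hh⟩ := nl_wt_heavy (q : ℝ) hqR
  obtain ⟨C0, hC0, H0⟩ := nl_wt_heavy0 (q : ℝ) hqR
  obtain ⟨CH, -, hCH⟩ := w0_tb_wH 3 52
  refine ⟨C₁ * (Ch + C0) * C₂, a₀, min (min Λ₁ Λ₂) (100 / q), by positivity, ha₀,
    lt_min (lt_min hΛ₁ hΛ₂) (by positivity), ?_⟩
  intro η hη U V hU hV t ht a b ha ha' sU sV sD
  have ht0 : t < 0 := ht.2
  have hm1 : min (min Λ₁ Λ₂) (100 / (q : ℝ)) ≤ Λ₁ := (min_le_left _ _).trans (min_le_left _ _)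
  have hm2 : min (min Λ₁ Λ₂) (100 / (q : ℝ)) ≤ Λ₂ := (min_le_left _ _).trans (min_le_right _ _)
  have hm3 : min (min Λ₁ Λ₂) (100 / (q : ℝ)) ≤ 100 / q := min_le_right _ _
  have ht₁ : t ∈ Ico (-Λ₁) 0 := ⟨by linarith [ht.1], ht0⟩
  have ht₂ : t ∈ Ico (-Λ₂) 0 := ⟨by linarith [ht.1], ht0⟩
  have ht₃ : -t ≤ 100 / (q : ℝ) := by linarith [ht.1]
  have hΛ : 0 < -t := by linarith
  have hD : ∀ j, Sm (nlSub U V j) := nl_sm_sub hU hV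
  have hS : ∀ j, Sm (nlSub (NN q g U) (NN q g V) j) :=
    nl_sm_sub (sm_NN hq1 hg.sm hU) (sm_NN hq1 hg.sm hV)
  have hSI := smI_slT hS ht0
  have cD := nl_ci_V1aa hq1 hg.sm hΓ hD ht0
  have cU := nl_ci_V1aa hq1 hg.sm hΓ hU ht0
  have cV := nl_ci_V1aa hq1 hg.sm hΓ hV ht0
  set K : ℝ := C₁ * (Ch + C0) with hK
  have hK0 : 0 ≤ K := by positivity
  set c₁ : ℝ := K * (a ^ 2 + (-t) ^ 4) with hc₁
  set c₂ : ℝ := K * b ^ 2 with hc₂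
  have hc₁0 : 0 ≤ c₁ := by positivity
  have hc₂0 : 0 ≤ c₂ := by positivity
  have key : HY q η (nlSub (NN q g U) (NN q g V)) t
      ≤ II (fun y => c₁ * (V1 q Γ t y * nlAa q g (nlSub U V) (t, y)) + c₂ * (V1 q Γ t y * nlAa q g U (t, y))
          + c₂ * (V1 q Γ t y * nlAa q g V (t, y))) := by
    unfold HY
    rw [← ii_const_mul]
    apply ii_mono
    · have p1 : CI (fun y : ℝ => (1 - y ^ 2) ^ 2) := (by fun_prop : Continuous fun y : ℝ => (1 - y ^ 2) ^ 2).continuousOn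
      exact continuousOn_const.mul ((p1.mul (hCH q t hq1 ht0).sm.continuousOn).mul (ci_n2 hSI))
    · exact ((continuousOn_const.mul cD).add (continuousOn_const.mul cU)).add (continuousOn_const.mul cV)
    · intro y hy
      have hV1 := (nl_V1_pos hq1 hΓ ht0 hy).le
      have hR := w0_rh2_pos hq1 ht0 hy
      have hρ : 0 < (rh2 q t y) ^ 3 * Real.sqrt (rh2 q t y) := by
        have := Real.sqrt_pos.mpr hR
        positivity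
      have hwH := (w0_wH_pos (a := 3) (M := 52) hq1 ht0 hy).le
      have hw : 0 ≤ (-t) ^ ((95 : ℝ) / 2 - 2 * η) * ((1 - y ^ 2) ^ 2 * wH 3 52 q t y) := by
        have := Real.rpow_nonneg hΛ.le ((95 : ℝ) / 2 - 2 * η)
        positivity
      have h1 := H₁ U V hU hV t ht₁ a b ha ha' sU sV sD y hy
      have h2 := Hh Γ hΓ η hη t ht0 ht₃ y hy
      have h3 := H0 Γ hΓ η hη t ht0 ht₃ y hy
      have hmain := nl_N1b_alg hρ hw (by positivity : (0 : ℝ) ≤ (-t) ^ 4) (nl_aa_nonneg q g (nlSub U V) (t, y))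
        (nl_aa_nonneg q g U (t, y)) (nl_aa_nonneg q g V (t, y)) hV1 (sq_nonneg a) (sq_nonneg b) hC₁ hCh hC0 h1 h2 h3
      have e2 := n2t_nonneg hq0 (slT (nlSub (NN q g U) (NN q g V)) t) y
      have hn : n2 q (slT (nlSub (NN q g U) (NN q g V)) t) y ≤ nlSq q (nlSub (NN q g U) (NN q g V)) (t, y) := by
        show _ ≤ n2 q (slT (nlSub (NN q g U) (NN q g V)) t) y + n2t q (slT (nlSub (NN q g U) (NN q g V)) t) y
        linarith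
      calc (-t) ^ ((95 : ℝ) / 2 - 2 * η) * ((1 - y ^ 2) ^ 2 * wH 3 52 q t y
            * n2 q (slT (nlSub (NN q g U) (NN q g V)) t) y)
          = (-t) ^ ((95 : ℝ) / 2 - 2 * η) * ((1 - y ^ 2) ^ 2 * wH 3 52 q t y)
            * n2 q (slT (nlSub (NN q g U) (NN q g V)) t) y := by ring
        _ ≤ (-t) ^ ((95 : ℝ) / 2 - 2 * η) * ((1 - y ^ 2) ^ 2 * wH 3 52 q t y)
            * nlSq q (nlSub (NN q g U) (NN q g V)) (t, y) := mul_le_mul_of_nonneg_left hn hw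
        _ ≤ _ := hmain
        _ = _ := by rw [hc₁, hc₂, hK]; ring
  rw [nl_ii_lin3 cD cU cV] at key
  have aD := H₂ (nlSub U V) hD t ht₂
  have aU := H₂ U hU t ht₂
  have aV := H₂ V hV t ht₂
  have b1 := mul_le_mul_of_nonneg_left aD hc₁0
  have b2 := mul_le_mul_of_nonneg_left aU hc₂0
  have b3 := mul_le_mul_of_nonneg_left aV hc₂0
  calc HY q η (nlSub (NN q g U) (NN q g V)) t
      ≤ c₁ * (C₂ * nlDD q g Γ (nlSub U V) t) + c₂ * (C₂ * nlDD q g Γ U t) + c₂ * (C₂ * nlDD q g Γ V t) := by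
        linarith
    _ = K * C₂ * ((a ^ 2 + (-t) ^ 4) * nlDD q g Γ (nlSub U V) t
          + b ^ 2 * (nlDD q g Γ U t + nlDD q g Γ V t)) := by
        rw [hc₁, hc₂]; ring

end Claimed.Agent.R324.Core
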