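/-
Row 324 (S0582), PDE core, module NL (blueprint 7.5, N1'), architect helper232.      FILE N1t: the contraction estimate, integrated in time.
PORT of R325/Core/NL/N1t.lean (= Claimed/Agent/R325/Pk54.lean, lines 210-420).
 * `nl_sup_XB`:  `cl_need_sup` (Core/CL/Need.lean, M = 30; constant CS):  R³√R (n2+n2t)(U) ≤ CS T³⁰ (E0 + E1)(t) ≤ CS T³⁰ · 2 r²   ⟹   SupB q 30 U t (√(2 CS) |r|).       (E0 q Γ U t = En q (wL 2 30 ..) .., E1 = En q (wL 4 30 ..) (slT (Lt ..) t): unfold E0 E1 V0 V1.)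
 * `nl_DY_cut`, `nl_HY_cut`:  slT (nlCut τc S) t = fun j z => θ(t) * slT S t j z;   `nl_Di_const_mul`, `nl_n2_const_mul`;   θ² ≤ 1 and DY, HY ≥ 0.
 * `nl_N1_time`:   a := √(2 CS) r ≤ a₀ for r ≤ r0 := a₀/√(2 CS + 1)..,  b := √(2 CS) |rd|.     For s ∈ (ts,0):   DY(θ dN)(s) ≤ DY(dN)(s) ≤ C nlQ(s) (`nl_N1a`),   HY(θ dN)(s) ≤ C (..) (`nl_N1b`);   Λ(s) = -s ≤ -ts.
        ∫_ts^t nlDD(d) ≤ 2 rd²,   ∫ nlDD(U), ∫ nlDD(V) ≤ 2 r²   (XB.d0, XB.d1;  `intervalIntegral.integral_add`, integrability from `nl_cont_D0`, `nl_cont_D1`),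
        ∫_ts^t (..) ≤ C ((2 CS r² + (-ts)⁴) 2 rd² + 2 CS rd² 4 r²) ≤ CN² (r + (-ts)²)² rd².          `intervalIntegral.integral_mono_on` (continuity: `nl_cont_DY`, `nl_cont_HY`, `nl_cont_DD`; the factor (-s)^k is monotone: bound it by (-ts)^k BEFORE integrating).
-/
import Claimed.Agent.R324.Core.NL.N1a
import Claimed.Agent.R324.Core.NL.N1b
import Claimed.Agent.R324.Core.CL.Need

set_option autoImplicit false

namespace Claimed.Agent.R324.Core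

open Set Filter Topology MeasureTheory
open scoped ContDiff

theorem nl_sup_XB (q : ℕ) (hq6 : 10 ^ 6 ≤ q) (g : Bg) (hg : BgGood q g) (Γ : ℝ) (hΓ : 0 ≤ Γ) :
    ∃ CS Λ₀ : ℝ, 0 < CS ∧ 0 < Λ₀ ∧ ∀ ts ∈ Ico (-Λ₀) 0, ∀ (U : Tri) (r : ℝ), (∀ j, Sm (U j)) → XB q g Γ ts r U →
      ∀ t ∈ Ioo ts 0, SupB q 30 U t (CS * |r|) := by
  obtain ⟨C, Λ₀, hC, hΛ₀, H⟩ := cl_need_sup q hq6 g hg Γ hΓ 30 (Or.inr rfl)
  refine ⟨2 * C + 1, Λ₀, by positivity, hΛ₀, fun ts hts U r hU hXB t ht y hy => ?_⟩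
  have ht' : t ∈ Ico (-Λ₀) 0 := ⟨hts.1.trans ht.1.le, ht.2⟩
  have h1 := (H U hU t ht' y hy).1
  have e0 : En q (wL 2 30 q Γ t) (slT U t) ≤ r ^ 2 := hXB.e0 t ht
  have e1 : En q (wL 4 30 q Γ t) (slT (Lt q g U) t) ≤ r ^ 2 := hXB.e1 t ht
  have hT : 0 ≤ (Th t y) ^ 30 := (pow_pos (w0_Th_pos ht.2 hy) _).le
  refine h1.trans ?_
  rw [mul_pow, sq_abs]
  have h2 : C * (En q (wL 2 30 q Γ t) (slT U t) + En q (wL 4 30 q Γ t) (slT (Lt q g U) t))
      ≤ (2 * C + 1) ^ 2 * r ^ 2 := by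
    have h3 : C * (En q (wL 2 30 q Γ t) (slT U t) + En q (wL 4 30 q Γ t) (slT (Lt q g U) t)) ≤ C * (2 * r ^ 2) :=
      mul_le_mul_of_nonneg_left (by linarith) hC
    nlinarith [sq_nonneg r, mul_nonneg hC (sq_nonneg r), mul_nonneg (mul_nonneg hC hC) (sq_nonneg r)]
  calc C * Th t y ^ 30 * (En q (wL 2 30 q Γ t) (slT U t) + En q (wL 4 30 q Γ t) (slT (Lt q g U) t))
      = C * (En q (wL 2 30 q Γ t) (slT U t) + En q (wL 4 30 q Γ t) (slT (Lt q g U) t)) * Th t y ^ 30 := by ring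
    _ ≤ _ := mul_le_mul_of_nonneg_right h2 hT

theorem nl_DY_cut_le (q : ℝ) (hq : 1 < q) (Γ : ℝ) (hΓ : 0 ≤ Γ) (τc : ℝ) (S : Tri) (t : ℝ) (ht : t < 0) :
    DY q Γ (nlCut τc S) t ≤ DY q Γ S t := by
  have h0 : 0 ≤ DY q Γ S t :=
    w2_Di_nonneg hq.le (fun y hy => (w0_wL_pos hq hΓ ht hy).le) _
  have h1 : DY q Γ (nlCut τc S) t = (thetaC τc t) ^ 2 * DY q Γ S t :=
    nl_Di_const_mul q (thetaC τc t) (V1 q Γ t) (slT S t)
  rw [h1]
  exact mul_le_of_le_one_left h0 (nl_thetaC_sq_le_one τc t)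

theorem nl_HY_cut_le (q : ℝ) (hq : 1 < q) (η τc : ℝ) (S : Tri) (t : ℝ) (ht : t < 0) :
    HY q η (nlCut τc S) t ≤ HY q η S t := by
  have hq0 : 0 < q := by linarith
  have hI : 0 ≤ II (fun y => (1 - y ^ 2) ^ 2 * wH 3 52 q t y * n2 q (slT S t) y) :=
    ii_nonneg (fun y hy => mul_nonneg (mul_nonneg (sq_nonneg _) (w0_wH_pos hq ht hy).le) (n2_nonneg hq0 _ _))
  have hL : 0 ≤ (-t) ^ ((95 : ℝ) / 2 - 2 * η) := Real.rpow_nonneg (by linarith) _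
  have h1 : II (fun y => (1 - y ^ 2) ^ 2 * wH 3 52 q t y * n2 q (slT (nlCut τc S) t) y)
      = (thetaC τc t) ^ 2 * II (fun y => (1 - y ^ 2) ^ 2 * wH 3 52 q t y * n2 q (slT S t) y) := by
    rw [← ii_const_mul]
    refine ii_congr (fun y _ => ?_)
    have h2 : n2 q (slT (nlCut τc S) t) y = (thetaC τc t) ^ 2 * n2 q (slT S t) y :=
      nl_n2_const_mul q (thetaC τc t) (slT S t) y
    rw [h2]
    ring
  unfold HY
  rw [h1]
  exact mul_le_mul_of_nonneg_left (mul_le_of_le_one_left hI (nl_thetaC_sq_le_one τc t)) hL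

/-- monotonicity of the integral for functions continuous on `(-∞,0)`. -/
theorem nl_int_mono {F G : ℝ → ℝ} (hF : ContinuousOn F (Iio 0)) (hG : ContinuousOn G (Iio 0)) {ts t : ℝ}
    (ht : t ∈ Ioo ts 0) (h : ∀ s ∈ Ioo ts 0, F s ≤ G s) : ∫ s in ts..t, F s ≤ ∫ s in ts..t, G s := by
  have hts0 : ts < 0 := ht.1.trans ht.2
  refine intervalIntegral.integral_mono_on_of_le_Ioo ht.1.le (nl_intervalIntegrable hF hts0 ht.2)
    (nl_intervalIntegrable hG hts0 ht.2) fun s hs => h s ⟨hs.1, hs.2.trans ht.2⟩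

/-- integral of the right hand side of (N1). -/
theorem nl_Q_int (q : ℝ) (hq : 1 < q) (g : Bg) (hg : BgSm g) (Γ : ℝ) (hΓ : 0 ≤ Γ) (ts : ℝ) (U V : Tri)
    (hU : ∀ j, Sm (U j)) (hV : ∀ j, Sm (V j)) (r rd A B : ℝ) (hA : 0 ≤ A) (hB : 0 ≤ B) (hxu : XB q g Γ ts r U)
    (hxv : XB q g Γ ts r V) (hxd : XB q g Γ ts rd (nlSub U V)) (t : ℝ) (ht : t ∈ Ioo ts 0) :
    ∫ s in ts..t, (A * nlDD q g Γ (nlSub U V) s + B * (nlDD q g Γ U s + nlDD q g Γ V s))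
      ≤ 2 * A * rd ^ 2 + 4 * B * r ^ 2 := by
  have hts0 : ts < 0 := ht.1.trans ht.2
  have ht0 : t < 0 := ht.2
  have hd := nl_sm_sub hU hV
  have i0d := nl_intervalIntegrable (nl_cont_D0 q Γ hd) hts0 ht0
  have i1d := nl_intervalIntegrable (nl_cont_D1 hq hg Γ hd) hts0 ht0
  have i0u := nl_intervalIntegrable (nl_cont_D0 q Γ hU) hts0 ht0
  have i1u := nl_intervalIntegrable (nl_cont_D1 hq hg Γ hU) hts0 ht0
  have i0v := nl_intervalIntegrable (nl_cont_D0 q Γ hV) hts0 ht0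
  have i1v := nl_intervalIntegrable (nl_cont_D1 hq hg Γ hV) hts0 ht0
  have heq : ∫ s in ts..t, (A * nlDD q g Γ (nlSub U V) s + B * (nlDD q g Γ U s + nlDD q g Γ V s))
      = A * ((∫ s in ts..t, D0 q Γ (nlSub U V) s) + ∫ s in ts..t, D1 q g Γ (nlSub U V) s)
        + B * (((∫ s in ts..t, D0 q Γ U s) + ∫ s in ts..t, D1 q g Γ U s)
          + ((∫ s in ts..t, D0 q Γ V s) + ∫ s in ts..t, D1 q g Γ V s)) := by
    unfold nlDD
    rw [intervalIntegral.integral_add ((i0d.add i1d).const_mul A) (((i0u.add i1u).add (i0v.add i1v)).const_mul B),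
      intervalIntegral.integral_const_mul, intervalIntegral.integral_const_mul,
      intervalIntegral.integral_add i0d i1d, intervalIntegral.integral_add (i0u.add i1u) (i0v.add i1v),
      intervalIntegral.integral_add i0u i1u, intervalIntegral.integral_add i0v i1v]
  rw [heq]
  have a0 := hxd.d0 t ht
  have a1 := hxd.d1 t ht
  have b0 := hxu.d0 t ht
  have b1 := hxu.d1 t ht
  have c0 := hxv.d0 t ht
  have c1 := hxv.d1 t ht
  have hAle : A * ((∫ s in ts..t, D0 q Γ (nlSub U V) s) + ∫ s in ts..t, D1 q g Γ (nlSub U V) s) ≤ A * (2 * rd ^ 2) :=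
    mul_le_mul_of_nonneg_left (by linarith) hA
  have hBle : B * (((∫ s in ts..t, D0 q Γ U s) + ∫ s in ts..t, D1 q g Γ U s)
          + ((∫ s in ts..t, D0 q Γ V s) + ∫ s in ts..t, D1 q g Γ V s)) ≤ B * (4 * r ^ 2) :=
    mul_le_mul_of_nonneg_left (by linarith) hB
  linarith

theorem nl_DD_nonneg_aux (q : ℝ) (hq : 1 < q) (g : Bg) (Γ : ℝ) (hΓ : 0 ≤ Γ) (U : Tri) (t : ℝ) (ht : t < 0) :
    0 ≤ nlDD q g Γ U t := by
  have h0 : 0 ≤ D0 q Γ U t := w2_Di_nonneg hq.le (fun y hy => (w0_wL_pos hq hΓ ht hy).le) _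
  have h1 : 0 ≤ D1 q g Γ U t := w2_Di_nonneg hq.le (fun y hy => (w0_wL_pos hq hΓ ht hy).le) _
  unfold nlDD
  linarith

/-- **(N1')**: the contraction estimate. -/
theorem nl_N1_time (q : ℕ) (hq6 : 10 ^ 6 ≤ q) (g : Bg) (hg : BgGood q g) (Γ : ℝ) (hΓ : 0 ≤ Γ) :
    ∃ r0 CN Λ₀ : ℝ, 0 < r0 ∧ 0 ≤ CN ∧ 0 < Λ₀ ∧ ∀ η : ℝ, η ≤ 139 / 10 → ∀ ts ∈ Ico (-Λ₀) 0, ∀ τc : ℝ,
      ∀ U V : Tri, (∀ j, Sm (U j)) → (∀ j, Sm (V j)) → ∀ r rd : ℝ, 0 ≤ r → r ≤ r0 →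
        XB q g Γ ts r U → XB q g Γ ts r V → XB q g Γ ts rd (nlSub U V) →
        YB q Γ η ts (CN * (r + (-ts) ^ 2) * rd) (nlCut τc (nlSub (NN q g U) (NN q g V))) := by
  have hq1 : (1 : ℝ) < (q : ℝ) := by
    have : ((10 ^ 6 : ℕ) : ℝ) ≤ (q : ℝ) := by exact_mod_cast hq6
    push_cast at this
    linarith
  obtain ⟨CS, Λs, hCS, hΛs, hsup⟩ := nl_sup_XB q hq6 g hg Γ hΓ
  obtain ⟨Ca, aa, Λa, hCa, haa, hΛa, hA⟩ := nl_N1a q hq6 g hg Γ hΓ
  obtain ⟨Cb, ab, Λb, hCb, hab, hΛb, hB⟩ := nl_N1b q hq6 g hg Γ hΓ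
  have hC : 0 ≤ max Ca Cb := hCa.trans (le_max_left _ _)
  refine ⟨min aa ab / CS, Real.sqrt (max Ca Cb * (6 * CS ^ 2 + 2)), min (min Λs Λa) (min Λb 1),
    div_pos (lt_min haa hab) hCS, Real.sqrt_nonneg _, lt_min (lt_min hΛs hΛa) (lt_min hΛb one_pos),
    fun η hη ts hts τc U V hU hV r rd hr hr0 hXu hXv hXd => ?_⟩
  set C := max Ca Cb with hCdef
  have hts0 : ts < 0 := hts.2
  have hl1 : min (min Λs Λa) (min Λb 1) ≤ Λs := (min_le_left _ _).trans (min_le_left _ _)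
  have hl2 : min (min Λs Λa) (min Λb 1) ≤ Λa := (min_le_left _ _).trans (min_le_right _ _)
  have hl3 : min (min Λs Λa) (min Λb 1) ≤ Λb := (min_le_right _ _).trans (min_le_left _ _)
  have hl4 : min (min Λs Λa) (min Λb 1) ≤ 1 := (min_le_right _ _).trans (min_le_right _ _)
  have hts1 := hts.1
  have hd := nl_sm_sub hU hV
  have hdN := nl_sm_sub (sm_NN hq1 hg.sm hU) (sm_NN hq1 hg.sm hV)
  have hcut := nl_sm_cut τc hdN
  have ha0 : 0 ≤ CS * |r| := by positivity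
  have har : CS * |r| = CS * r := by rw [abs_of_nonneg hr]
  have ha1 : CS * |r| ≤ min aa ab := by
    rw [har]
    calc CS * r ≤ CS * (min aa ab / CS) := mul_le_mul_of_nonneg_left hr0 hCS.le
      _ = min aa ab := by field_simp
  set A := (CS * |r|) ^ 2 + (-ts) ^ 4 with hAdef
  set B := (CS * |rd|) ^ 2 with hBdef
  have hA0 : 0 ≤ A := by
    have : 0 ≤ (-ts) ^ 4 := by positivity
    positivity
  have hB0 : 0 ≤ B := by positivity
  have hGc : ContinuousOn (fun s => C * (A * nlDD q g Γ (nlSub U V) s + B * (nlDD q g Γ U s + nlDD q g Γ V s)))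
      (Iio 0) :=
    continuousOn_const.mul ((continuousOn_const.mul (nl_cont_DD hq1 hg.sm Γ hd)).add
      (continuousOn_const.mul ((nl_cont_DD hq1 hg.sm Γ hU).add (nl_cont_DD hq1 hg.sm Γ hV))))
  have hsq : (Real.sqrt (C * (6 * CS ^ 2 + 2)) * (r + (-ts) ^ 2) * rd) ^ 2
      = C * (6 * CS ^ 2 + 2) * (r + (-ts) ^ 2) ^ 2 * rd ^ 2 := by
    rw [mul_pow, mul_pow, Real.sq_sqrt (by positivity)]
  have hbound : ∀ t ∈ Ioo ts 0,
      ∫ s in ts..t, C * (A * nlDD q g Γ (nlSub U V) s + B * (nlDD q g Γ U s + nlDD q g Γ V s))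
        ≤ (Real.sqrt (C * (6 * CS ^ 2 + 2)) * (r + (-ts) ^ 2) * rd) ^ 2 := by
    intro t ht
    rw [intervalIntegral.integral_const_mul, hsq]
    have h1 := nl_Q_int q hq1 g hg.sm Γ hΓ ts U V hU hV r rd A B hA0 hB0 hXu hXv hXd t ht
    have h2 : 2 * A * rd ^ 2 + 4 * B * r ^ 2 ≤ (6 * CS ^ 2 + 2) * (r + (-ts) ^ 2) ^ 2 * rd ^ 2 := by
      rw [hAdef, hBdef, mul_pow, mul_pow, sq_abs, sq_abs]
      have h3 : r ^ 2 + (-ts) ^ 4 ≤ (r + (-ts) ^ 2) ^ 2 := by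
        have : 0 ≤ r * (-ts) ^ 2 := by positivity
        nlinarith
      have h4 : 6 * CS ^ 2 * r ^ 2 + 2 * (-ts) ^ 4 ≤ (6 * CS ^ 2 + 2) * (r + (-ts) ^ 2) ^ 2 := by
        have h5 : 0 ≤ (-ts) ^ 4 := by positivity
        have h6 : 0 ≤ CS ^ 2 * (-ts) ^ 4 := by positivity
        nlinarith [sq_nonneg r, sq_nonneg CS]
      calc 2 * (CS ^ 2 * r ^ 2 + (-ts) ^ 4) * rd ^ 2 + 4 * (CS ^ 2 * rd ^ 2) * r ^ 2
          = (6 * CS ^ 2 * r ^ 2 + 2 * (-ts) ^ 4) * rd ^ 2 := by ring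
        _ ≤ _ := mul_le_mul_of_nonneg_right h4 (sq_nonneg _)
    calc C * ∫ s in ts..t, (A * nlDD q g Γ (nlSub U V) s + B * (nlDD q g Γ U s + nlDD q g Γ V s))
        ≤ C * ((6 * CS ^ 2 + 2) * (r + (-ts) ^ 2) ^ 2 * rd ^ 2) := mul_le_mul_of_nonneg_left (h1.trans h2) hC
      _ = _ := by ring
  -- pointwise in time
  have hpt : ∀ s ∈ Ioo ts 0,
      DY q Γ (nlCut τc (nlSub (NN q g U) (NN q g V))) s
          ≤ C * (A * nlDD q g Γ (nlSub U V) s + B * (nlDD q g Γ U s + nlDD q g Γ V s)) ∧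
      HY q η (nlCut τc (nlSub (NN q g U) (NN q g V))) s
          ≤ C * (A * nlDD q g Γ (nlSub U V) s + B * (nlDD q g Γ U s + nlDD q g Γ V s)) := by
    intro s hs
    have hs0 : s < 0 := hs.2
    have su := hsup ts ⟨by linarith, hts0⟩ U r hU hXu s hs
    have sv := hsup ts ⟨by linarith, hts0⟩ V r hV hXv s hs
    have sd := hsup ts ⟨by linarith, hts0⟩ (nlSub U V) rd hd hXd s hs
    have d0 := nl_DD_nonneg_aux q hq1 g Γ hΓ (nlSub U V) s hs0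
    have d1 := nl_DD_nonneg_aux q hq1 g Γ hΓ U s hs0
    have d2 := nl_DD_nonneg_aux q hq1 g Γ hΓ V s hs0
    have hs1 : -s ≤ -ts := by linarith [hs.1]
    have hs2 : -s ≤ 1 := by linarith
    have hs3 : 0 ≤ -s := by linarith
    have p4 : (-s) ^ 4 ≤ (-ts) ^ 4 := pow_le_pow_left₀ hs3 hs1 4
    have p6 : (-s) ^ 6 ≤ (-s) ^ 4 := pow_le_pow_of_le_one hs3 hs2 (by norm_num)
    have hQ0 : 0 ≤ A * nlDD q g Γ (nlSub U V) s + B * (nlDD q g Γ U s + nlDD q g Γ V s) := by positivity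
    constructor
    · refine (nl_DY_cut_le q hq1 Γ hΓ τc _ s hs0).trans ?_
      have h := hA U V hU hV s ⟨by linarith [hs.1], hs0⟩ (CS * |r|) (CS * |rd|) ha0 (ha1.trans (min_le_left _ _)) su sv sd
      refine h.trans ?_
      have h2 : nlQ q g Γ (CS * |r|) (CS * |rd|) U V s
          ≤ A * nlDD q g Γ (nlSub U V) s + B * (nlDD q g Γ U s + nlDD q g Γ V s) := by
        unfold nlQ
        have : (CS * |r|) ^ 2 + (-s) ^ 6 ≤ A := by rw [hAdef]; linarith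
        have := mul_le_mul_of_nonneg_right this d0
        linarith
      calc Ca * nlQ q g Γ (CS * |r|) (CS * |rd|) U V s
          ≤ Ca * (A * nlDD q g Γ (nlSub U V) s + B * (nlDD q g Γ U s + nlDD q g Γ V s)) :=
            mul_le_mul_of_nonneg_left h2 hCa
        _ ≤ _ := mul_le_mul_of_nonneg_right (le_max_left _ _) hQ0
    · refine (nl_HY_cut_le q hq1 η τc _ s hs0).trans ?_
      have h := hB η hη U V hU hV s ⟨by linarith [hs.1], hs0⟩ (CS * |r|) (CS * |rd|) ha0 (ha1.trans (min_le_right _ _))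
        su sv sd
      refine h.trans ?_
      have h2 : ((CS * |r|) ^ 2 + (-s) ^ 4) * nlDD q g Γ (nlSub U V) s
            + (CS * |rd|) ^ 2 * (nlDD q g Γ U s + nlDD q g Γ V s)
          ≤ A * nlDD q g Γ (nlSub U V) s + B * (nlDD q g Γ U s + nlDD q g Γ V s) := by
        have : (CS * |r|) ^ 2 + (-s) ^ 4 ≤ A := by rw [hAdef]; linarith
        have := mul_le_mul_of_nonneg_right this d0
        linarith
      calc Cb * (((CS * |r|) ^ 2 + (-s) ^ 4) * nlDD q g Γ (nlSub U V) s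
            + (CS * |rd|) ^ 2 * (nlDD q g Γ U s + nlDD q g Γ V s))
          ≤ Cb * (A * nlDD q g Γ (nlSub U V) s + B * (nlDD q g Γ U s + nlDD q g Γ V s)) :=
            mul_le_mul_of_nonneg_left h2 hCb
        _ ≤ _ := mul_le_mul_of_nonneg_right (le_max_right _ _) hQ0
  constructor
  · intro t ht
    exact (nl_int_mono (nl_cont_DY q Γ hcut) hGc ht fun s hs => (hpt s hs).1).trans (hbound t ht)
  · intro t ht
    exact (nl_int_mono (nl_cont_HY q η hcut) hGc ht fun s hs => (hpt s hs).2).trans (hbound t ht)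

end Claimed.Agent.R324.Core
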