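/-
Row 324 (S0582), PDE core, module NL (blueprint 7.5, N-R), architect helper232.      FILE Res: the residual is small in `𝒴`.
 * `nl_HY_res`.    BgRes (`hg.res`, i = 0, j = 0):  |Res₀|, |Res₁|, |X Res₂| ≤ C 𝔍²/Θ,   𝔍 = JJ q t y = T⁸ R^{-α/2},  α = alF q = bAl q ∈ (2, 2 + 5/q) (`bAl_bounds` and the sharper upper bound in R324/Bohm/Alpha.lean; only  2 < α ≤ 2.001  is used),
        so  n2 q (slT (Res q g) t) y ≤ (q+4) C² 𝔍⁴/T² = (q+4) C² T³⁰ R^{-2α}.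
        X² wH 3 52 n2 ≤ C' X² R^{3-2α} T^{-22} ≤ C'' R^{5-2α} T^{-22} ≤ C'' T^{5-2α-22} = C'' T^{-16-2α} T⁻¹ ≤ C'' Λ^{-16-2α}/T        (X ≤ (4/3) R;   5 - 2α > 0, R ≤ T;   T ≥ Λ),
        𝕀[1/T] ≤ C/√Λ  (`w0_ii_inv_Th`, Core/W/WtF.lean)      ⟹      HY ≤ C Λ^{95/2 - 2η - 16 - 2α - 1/2} = C Λ^{31-2η-2α} ≤ C Λ^{-81/100}      (η ≤ 13.9, α ≤ 2.001, Λ ≤ 1).
 * `nl_int_rpow`:   ∫_ts^t (-s)^{-r} ds ≤ (-ts)^{1-r}/(1-r),  0 < r < 1        (`integral_rpow` after s ↦ -s, or FTC with the primitive -(-s)^{1-r}/(1-r)).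
 * `nl_YB_res`:  DY(θ(-Res)) ≤ DY(Res) ≤ C/√Λ  (`cl_need_res`, `nl_DY_cut_le`;  DY(-S) = DY(S): `nl_Di_const_mul` with c = -1),  ∫ ≤ 2C (-ts)^{1/2} ≤ 2C (-ts)^{18/100};     HY: ∫ ≤ (C/0.19) (-ts)^{19/100} ≤ .. (-ts)^{18/100};      ((-ts)^{9/100})² = (-ts)^{18/100}.
-/
import Claimed.Agent.R324.Core.NL.N1t

set_option autoImplicit false

namespace Claimed.Agent.R324.Core

open Set Filter Topology MeasureTheory
open scoped ContDiff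

/-- `𝕀[f] ≤ 𝕀[g]` if `f ≤ g`, `0 ≤ g` on `[-1,1]`, `g` continuous (no integrability of `f` needed). -/
theorem nl_res_II_le {f g : ℝ → ℝ} (hg : CI g) (hg0 : ∀ y ∈ Icc (-1 : ℝ) 1, 0 ≤ g y)
    (h : ∀ y ∈ Icc (-1 : ℝ) 1, f y ≤ g y) : II f ≤ II g := by
  by_cases hi : IntervalIntegrable (fun ϑ => f (Real.cos ϑ)) volume 0 Real.pi
  · unfold II
    exact intervalIntegral.integral_mono_on Real.pi_pos.le hi (ii_integrable hg _ _)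
      (fun ϑ _ => h _ (cos_mem_Icc ϑ))
  · have h0 : II f = 0 := by
      unfold II
      exact intervalIntegral.integral_undef hi
    rw [h0]
    exact ii_nonneg hg0

/-- `2 < α ≤ 2.001`. -/
theorem nl_res_alpha {q : ℝ} (hq : 10 ^ 6 ≤ q) : 2 < alF q ∧ alF q ≤ 2001 / 1000 := by
  have hq100 : (100 : ℝ) ≤ q := by linarith
  obtain ⟨ha2, ha3⟩ := bAl_bounds hq100
  have hroot := bAl_root hq100
  have hα : alF q = bAl q := rfl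
  rw [hα]
  refine ⟨ha2, ?_⟩
  have h1 : (q + 1) * (bAl q - 2) = bAl q ^ 2 := by linarith
  have h2 : bAl q ^ 2 < 9 := by nlinarith
  have h3 : (10 ^ 6 : ℝ) * (bAl q - 2) ≤ (q + 1) * (bAl q - 2) :=
    mul_le_mul_of_nonneg_right (by linarith) (by linarith)
  linarith

/-- the algebra of the weights (pointwise). -/
theorem nl_res_alg {X r θ Λ α C : ℝ} (hX0 : 0 ≤ X) (hXr : X ≤ 4 / 3 * r) (hr : 0 < r) (hrθ : r ≤ θ)
    (hΛ : 0 < Λ) (hΛθ : Λ ≤ θ) (hα0 : 0 ≤ α) (hα : α ≤ 5 / 2) :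
    X ^ 2 * (r ^ 3 / θ ^ 52) * (C * (θ ^ 8 * r ^ (-α / 2)) ^ 2 / θ ^ 1) ^ 2
      ≤ 16 / 9 * C ^ 2 * Λ ^ (-16 - 2 * α) * (1 / θ) := by
  have hθ : 0 < θ := lt_of_lt_of_le hr hrθ
  have h1 : (r ^ (-α / 2)) ^ 4 = r ^ (-(2 * α)) := by
    rw [← Real.rpow_natCast, ← Real.rpow_mul hr.le]
    congr 1
    push_cast
    ring
  have h2 : r ^ (5 - 2 * α) = r ^ 5 * r ^ (-(2 * α)) := by
    rw [sub_eq_add_neg, Real.rpow_add hr]
    congr 1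
    exact_mod_cast Real.rpow_natCast r 5
  have h3 : θ ^ (5 - 2 * α) = θ ^ 21 * θ ^ (-16 - 2 * α) := by
    have e : (5 - 2 * α) = ((21 : ℕ) : ℝ) + (-16 - 2 * α) := by push_cast; ring
    rw [e, Real.rpow_add hθ, Real.rpow_natCast]
  have h4 : r ^ (5 - 2 * α) ≤ θ ^ (5 - 2 * α) := Real.rpow_le_rpow hr.le hrθ (by linarith)
  have h5 : θ ^ (-16 - 2 * α) ≤ Λ ^ (-16 - 2 * α) :=
    Real.rpow_le_rpow_of_nonpos hΛ hΛθ (by linarith)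
  have hp : 0 ≤ r ^ (-(2 * α)) := (Real.rpow_pos_of_pos hr _).le
  have hX2 : X ^ 2 ≤ 16 / 9 * r ^ 2 := by nlinarith
  have e1 : (r ^ 3 / θ ^ 52) * (C * (θ ^ 8 * r ^ (-α / 2)) ^ 2 / θ ^ 1) ^ 2
      = C ^ 2 * (r ^ 3 * r ^ (-(2 * α))) / θ ^ 22 := by
    rw [← h1]
    field_simp
  have hnn : 0 ≤ C ^ 2 * (r ^ 3 * r ^ (-(2 * α))) / θ ^ 22 := by positivity
  calc X ^ 2 * (r ^ 3 / θ ^ 52) * (C * (θ ^ 8 * r ^ (-α / 2)) ^ 2 / θ ^ 1) ^ 2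
      = X ^ 2 * (C ^ 2 * (r ^ 3 * r ^ (-(2 * α))) / θ ^ 22) := by rw [mul_assoc, e1]
    _ ≤ (16 / 9 * r ^ 2) * (C ^ 2 * (r ^ 3 * r ^ (-(2 * α))) / θ ^ 22) :=
        mul_le_mul_of_nonneg_right hX2 hnn
    _ = 16 / 9 * C ^ 2 * r ^ (5 - 2 * α) / θ ^ 22 := by rw [h2]; ring
    _ ≤ 16 / 9 * C ^ 2 * θ ^ (5 - 2 * α) / θ ^ 22 := by
        apply div_le_div_of_nonneg_right _ (by positivity)
        exact mul_le_mul_of_nonneg_left h4 (by positivity)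
    _ = 16 / 9 * C ^ 2 * θ ^ (-16 - 2 * α) * (1 / θ) := by
        rw [h3]
        field_simp
    _ ≤ 16 / 9 * C ^ 2 * Λ ^ (-16 - 2 * α) * (1 / θ) := by
        apply mul_le_mul_of_nonneg_right _ (by positivity)
        exact mul_le_mul_of_nonneg_left h5 (by positivity)

/-- `|u|² ≤ (q+4) b`. -/
theorem nl_res_n2 {q b : ℝ} (hq : 1 ≤ q) (u : Fin 3 → ℝ → ℝ) (y : ℝ)
    (h0 : (u 0 y) ^ 2 ≤ b) (h1 : (u 1 y) ^ 2 ≤ b) (h2 : ((1 - y ^ 2) * u 2 y) ^ 2 ≤ b) :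
    n2 q u y ≤ (q + 4) * b := by
  have hb : 0 ≤ b := le_trans (sq_nonneg _) h0
  have hf : q / (q + 1) ≤ 1 := by
    rw [div_le_one (by linarith)]
    linarith
  unfold n2
  have e0 : (q + 1) * (u 0 y) ^ 2 ≤ (q + 1) * b := mul_le_mul_of_nonneg_left h0 (by linarith)
  have e2 : q / (q + 1) * ((1 - y ^ 2) * u 2 y) ^ 2 ≤ 1 * b :=
    mul_le_mul hf h2 (sq_nonneg _) (by norm_num)
  linarith

theorem nl_HY_res (q : ℕ) (hq6 : 10 ^ 6 ≤ q) (g : Bg) (hg : BgGood q g) :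
    ∃ C Λ₀ : ℝ, 0 ≤ C ∧ 0 < Λ₀ ∧ ∀ η : ℝ, η ≤ 139 / 10 → ∀ t ∈ Ico (-Λ₀) 0,
      HY q η (Res q g) t ≤ C * (-t) ^ (-(81 : ℝ) / 100) := by
  have hq : (10 ^ 6 : ℝ) ≤ (q : ℝ) := by exact_mod_cast hq6
  have hq100 : (100 : ℝ) ≤ (q : ℝ) := by linarith
  have hq1 : (1 : ℝ) < (q : ℝ) := by linarith
  have hq0 : (0 : ℝ) < (q : ℝ) := by linarith
  obtain ⟨Λ₁, C, hΛ₁, hres⟩ := hg.res
  obtain ⟨C₁, hC₁, hII⟩ := w0_ii_inv_Th
  obtain ⟨ha2, ha3⟩ := nl_res_alpha hq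
  refine ⟨((q : ℝ) + 4) * (16 / 9 * C ^ 2) * C₁, min Λ₁ (min 1 (100 / (q : ℝ))), by positivity,
    lt_min hΛ₁ (lt_min one_pos (by positivity)), ?_⟩
  intro η hη t ht
  have ht0 : t < 0 := ht.2
  have hΛ : 0 < -t := by linarith
  have hm1 : min Λ₁ (min 1 (100 / (q : ℝ))) ≤ Λ₁ := min_le_left _ _
  have hm2 : min Λ₁ (min 1 (100 / (q : ℝ))) ≤ 1 := le_trans (min_le_right _ _) (min_le_left _ _)
  have hm3 : min Λ₁ (min 1 (100 / (q : ℝ))) ≤ 100 / (q : ℝ) :=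
    le_trans (min_le_right _ _) (min_le_right _ _)
  have htΛ : t ∈ Ico (-Λ₁) 0 := ⟨by linarith [ht.1], ht.2⟩
  have ht1 : t ∈ Ico (-1 : ℝ) 0 := ⟨by linarith [ht.1], ht.2⟩
  have htq : -t ≤ 100 / (q : ℝ) := by linarith [ht.1]
  set α := alF (q : ℝ) with hαdef
  set K := ((q : ℝ) + 4) * (16 / 9 * C ^ 2) * (-t) ^ (-16 - 2 * α) with hK
  have hK0 : 0 ≤ K := by
    have : 0 ≤ (-t) ^ (-16 - 2 * α) := Real.rpow_nonneg hΛ.le _
    positivity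
  have hcTh : Continuous (fun y => Th t y) := by
    unfold Th
    exact continuous_const.add w0_contDiff_Xt.continuous
  have hCI : CI (fun y => K * (1 / Th t y)) :=
    continuousOn_const.mul
      (continuousOn_const.div hcTh.continuousOn (fun y hy => (w0_Th_pos ht0 hy).ne'))
  have hpt : ∀ y ∈ Icc (-1 : ℝ) 1,
      (1 - y ^ 2) ^ 2 * wH 3 52 q t y * n2 q (slT (Res q g) t) y ≤ K * (1 / Th t y) := by
    intro y hy
    have hr : 0 < rh2 q t y := w0_rh2_pos hq1 ht0 hy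
    have hθ : 0 < Th t y := w0_Th_pos ht0 hy
    have hrθ : rh2 q t y ≤ Th t y := w0_rh2_le_Th hq100 ht0 htq y
    have hΛθ : -t ≤ Th t y := w0_Lam_le_Th hy
    have hX0 : 0 ≤ 1 - y ^ 2 := w0_Xf_nonneg hy
    have hXr : 1 - y ^ 2 ≤ 4 / 3 * rh2 q t y := w0_Xf_le_rh2 hq1 ht0 hy
    obtain ⟨a0, a1, a2⟩ := hres t htΛ y hy 0 (by norm_num) 0 (by norm_num)
    set b := (C * (JJ q t y) ^ 2 / (Th t y) ^ 1) ^ 2 with hb
    have sq : ∀ x : ℝ, |x| ≤ C * (JJ q t y) ^ 2 / (Th t y) ^ (1 + 0) → x ^ 2 ≤ b := by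
      intro x hx
      rw [hb, ← sq_abs x]
      exact pow_le_pow_left₀ (abs_nonneg x) hx 2
    have hn2 : n2 q (slT (Res q g) t) y ≤ ((q : ℝ) + 4) * b :=
      nl_res_n2 hq1.le _ y (sq _ a0) (sq _ a1) (sq _ a2)
    have hW0 : 0 ≤ (1 - y ^ 2) ^ 2 * wH 3 52 q t y :=
      mul_nonneg (sq_nonneg _) (w0_wH_pos hq1 ht0 hy).le
    have halg : (1 - y ^ 2) ^ 2 * wH 3 52 q t y * b
        ≤ 16 / 9 * C ^ 2 * (-t) ^ (-16 - 2 * α) * (1 / Th t y) := by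
      rw [hb]
      unfold JJ wH
      exact nl_res_alg hX0 hXr hr hrθ hΛ hΛθ (by linarith) (by linarith)
    calc (1 - y ^ 2) ^ 2 * wH 3 52 q t y * n2 q (slT (Res q g) t) y
        ≤ (1 - y ^ 2) ^ 2 * wH 3 52 q t y * (((q : ℝ) + 4) * b) :=
          mul_le_mul_of_nonneg_left hn2 hW0
      _ = ((q : ℝ) + 4) * ((1 - y ^ 2) ^ 2 * wH 3 52 q t y * b) := by ring
      _ ≤ ((q : ℝ) + 4) * (16 / 9 * C ^ 2 * (-t) ^ (-16 - 2 * α) * (1 / Th t y)) :=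
          mul_le_mul_of_nonneg_left halg (by positivity)
      _ = K * (1 / Th t y) := by rw [hK]; ring
  have h1 : II (fun y => (1 - y ^ 2) ^ 2 * wH 3 52 q t y * n2 q (slT (Res q g) t) y)
      ≤ K * (C₁ / Real.sqrt (-t)) := by
    refine le_trans (nl_res_II_le hCI (fun y hy => ?_) hpt) ?_
    · exact mul_nonneg hK0 (by have := w0_Th_pos ht0 hy; positivity)
    · rw [ii_const_mul]
      exact mul_le_mul_of_nonneg_left (hII t ht1) hK0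
  have hs : 1 / Real.sqrt (-t) = (-t) ^ (-(1 / 2 : ℝ)) := by
    rw [Real.rpow_neg hΛ.le, Real.sqrt_eq_rpow, one_div, one_div]
  have hP0 : 0 ≤ (-t) ^ ((95 : ℝ) / 2 - 2 * η) := Real.rpow_nonneg hΛ.le _
  have hexp : (-t) ^ ((95 : ℝ) / 2 - 2 * η) * ((-t) ^ (-16 - 2 * α) * (-t) ^ (-(1 / 2 : ℝ)))
      ≤ (-t) ^ (-(81 : ℝ) / 100) := by
    rw [← Real.rpow_add hΛ, ← Real.rpow_add hΛ]
    exact Real.rpow_le_rpow_of_exponent_ge hΛ (by linarith [ht1.1]) (by linarith)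
  unfold HY
  calc (-t) ^ ((95 : ℝ) / 2 - 2 * η)
        * II (fun y => (1 - y ^ 2) ^ 2 * wH 3 52 q t y * n2 q (slT (Res q g) t) y)
      ≤ (-t) ^ ((95 : ℝ) / 2 - 2 * η) * (K * (C₁ / Real.sqrt (-t))) :=
        mul_le_mul_of_nonneg_left h1 hP0
    _ = ((q : ℝ) + 4) * (16 / 9 * C ^ 2) * C₁
          * ((-t) ^ ((95 : ℝ) / 2 - 2 * η) * ((-t) ^ (-16 - 2 * α) * (-t) ^ (-(1 / 2 : ℝ)))) := by
        rw [← hs, hK]; ring
    _ ≤ ((q : ℝ) + 4) * (16 / 9 * C ^ 2) * C₁ * (-t) ^ (-(81 : ℝ) / 100) :=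
        mul_le_mul_of_nonneg_left hexp (by positivity)

theorem nl_int_rpow {r : ℝ} (hr0 : 0 < r) (hr1 : r < 1) {ts t : ℝ} (ht : t ∈ Ioo ts 0) :
    ∫ s in ts..t, (-s) ^ (-r) ≤ (-ts) ^ (1 - r) / (1 - r) := by
  have h1 : ∫ s in ts..t, (-s) ^ (-r) = ∫ x in (-t)..(-ts), x ^ (-r) :=
    intervalIntegral.integral_comp_neg (fun x : ℝ => x ^ (-r))
  rw [h1, integral_rpow (Or.inl (by linarith))]
  have e : -r + 1 = 1 - r := by ring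
  rw [e]
  apply div_le_div_of_nonneg_right _ (by linarith)
  have : 0 ≤ (-t) ^ (1 - r) := Real.rpow_nonneg (by linarith [ht.2]) _
  linarith

theorem nl_res_DY_neg (q Γ : ℝ) (g : Bg) (t : ℝ) : DY q Γ (nlRes q g) t = DY q Γ (Res q g) t := by
  unfold DY
  have e : slT (nlRes q g) t = fun j z => (-1 : ℝ) * slT (Res q g) t j z := by
    funext j z
    show -Res q g j (t, z) = (-1 : ℝ) * Res q g j (t, z)
    ring
  rw [e, nl_Di_const_mul]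
  norm_num

theorem nl_res_HY_neg (q η : ℝ) (g : Bg) (t : ℝ) : HY q η (nlRes q g) t = HY q η (Res q g) t := by
  unfold HY
  have e : slT (nlRes q g) t = fun j z => (-1 : ℝ) * slT (Res q g) t j z := by
    funext j z
    show -Res q g j (t, z) = (-1 : ℝ) * Res q g j (t, z)
    ring
  rw [e]
  congr 2
  funext y
  rw [nl_n2_const_mul]
  norm_num

/-- `∫_ts^t F ≤ (C/(1-r)) (-ts)^{18/100}` if `F ≤ C (-s)^{-r}`, `r ≤ 82/100`. -/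
theorem nl_res_int {F : ℝ → ℝ} (hF : ContinuousOn F (Iio 0)) {C r : ℝ} (hC : 0 ≤ C) (hr0 : 0 < r)
    (hr1 : r ≤ 82 / 100) {ts t : ℝ} (hts : -1 ≤ ts) (ht : t ∈ Ioo ts 0)
    (h : ∀ s ∈ Ioo ts 0, F s ≤ C * (-s) ^ (-r)) :
    ∫ s in ts..t, F s ≤ C / (1 - r) * (-ts) ^ ((18 : ℝ) / 100) := by
  have hts0 : ts < 0 := lt_trans ht.1 ht.2
  have hG : ContinuousOn (fun s : ℝ => C * (-s) ^ (-r)) (Iio 0) := by
    apply continuousOn_const.mul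
    apply ContinuousOn.rpow_const continuousOn_id.neg
    intro s hs
    left
    have : s < 0 := hs
    show -s ≠ 0
    linarith
  have h1 := nl_int_mono hF hG ht h
  have h2 : ∫ s in ts..t, C * (-s) ^ (-r) = C * ∫ s in ts..t, (-s) ^ (-r) :=
    intervalIntegral.integral_const_mul _ _
  have h3 := nl_int_rpow hr0 (by linarith) ht
  have h4 : (-ts) ^ (1 - r) ≤ (-ts) ^ ((18 : ℝ) / 100) :=
    Real.rpow_le_rpow_of_exponent_ge (by linarith) (by linarith) (by linarith)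
  have hr' : 0 < 1 - r := by linarith
  calc ∫ s in ts..t, F s ≤ C * ∫ s in ts..t, (-s) ^ (-r) := by rw [← h2]; exact h1
    _ ≤ C * ((-ts) ^ (1 - r) / (1 - r)) := mul_le_mul_of_nonneg_left h3 hC
    _ ≤ C * ((-ts) ^ ((18 : ℝ) / 100) / (1 - r)) := by
        apply mul_le_mul_of_nonneg_left _ hC
        exact div_le_div_of_nonneg_right h4 hr'.le
    _ = C / (1 - r) * (-ts) ^ ((18 : ℝ) / 100) := by ring

/-- **(N-R).** -/
theorem nl_YB_res (q : ℕ) (hq6 : 10 ^ 6 ≤ q) (g : Bg) (hg : BgGood q g) (Γ : ℝ) (hΓ : 0 ≤ Γ) :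
    ∃ Ce Λ₀ : ℝ, 0 < Ce ∧ 0 < Λ₀ ∧ ∀ η : ℝ, η ≤ 139 / 10 → ∀ ts ∈ Ico (-Λ₀) 0, ∀ τc : ℝ,
      YB q Γ η ts (Ce * (-ts) ^ ((9 : ℝ) / 100)) (nlCut τc (nlRes q g)) := by
  have hq : (10 ^ 6 : ℝ) ≤ (q : ℝ) := by exact_mod_cast hq6
  have hq1 : (1 : ℝ) < (q : ℝ) := by linarith
  obtain ⟨C1, Λ₁, hC1, hΛ₁, hD⟩ := cl_need_res q hq6 g hg Γ hΓ
  obtain ⟨C2, Λ₂, hC2, hΛ₂, hH⟩ := nl_HY_res q hq6 g hg
  have hA0 : 0 < C1 / (1 - 1 / 2) + C2 / (1 - 81 / 100) + 1 := by positivity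
  refine ⟨Real.sqrt (C1 / (1 - 1 / 2) + C2 / (1 - 81 / 100) + 1), min 1 (min Λ₁ Λ₂),
    Real.sqrt_pos.2 hA0, lt_min one_pos (lt_min hΛ₁ hΛ₂), ?_⟩
  intro η hη ts hts τc
  have hm1 : min 1 (min Λ₁ Λ₂) ≤ 1 := min_le_left _ _
  have hm2 : min 1 (min Λ₁ Λ₂) ≤ Λ₁ := le_trans (min_le_right _ _) (min_le_left _ _)
  have hm3 : min 1 (min Λ₁ Λ₂) ≤ Λ₂ := le_trans (min_le_right _ _) (min_le_right _ _)
  have hts1 : -1 ≤ ts := by linarith [hts.1]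
  have hΛs : 0 < -ts := by linarith [hts.2]
  have hsm : ∀ j, Sm (nlCut τc (nlRes q g) j) := nl_sm_cut τc (nl_sm_res hg.sm q)
  have hP : 0 ≤ (-ts) ^ ((18 : ℝ) / 100) := Real.rpow_nonneg hΛs.le _
  have hsq : (Real.sqrt (C1 / (1 - 1 / 2) + C2 / (1 - 81 / 100) + 1) * (-ts) ^ ((9 : ℝ) / 100)) ^ 2
      = (C1 / (1 - 1 / 2) + C2 / (1 - 81 / 100) + 1) * (-ts) ^ ((18 : ℝ) / 100) := by
    rw [mul_pow, Real.sq_sqrt hA0.le, ← Real.rpow_natCast, ← Real.rpow_mul hΛs.le]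
    norm_num
  have hB1 : 0 ≤ C1 / (1 - 1 / 2) := by positivity
  have hB2 : 0 ≤ C2 / (1 - 81 / 100) := by positivity
  constructor
  · intro t ht
    rw [hsq]
    have h1 : ∫ s in ts..t, DY q Γ (nlCut τc (nlRes q g)) s
        ≤ C1 / (1 - 1 / 2) * (-ts) ^ ((18 : ℝ) / 100) := by
      refine nl_res_int (nl_cont_DY q Γ hsm) hC1 (by norm_num) (by norm_num) hts1 ht ?_
      intro s hs
      have hs0 : s < 0 := hs.2
      have hsΛ : s ∈ Ico (-Λ₁) 0 := ⟨by linarith [hts.1, hs.1], hs.2⟩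
      have e : C1 / Real.sqrt (-s) = C1 * (-s) ^ (-(1 / 2 : ℝ)) := by
        rw [Real.rpow_neg (by linarith), Real.sqrt_eq_rpow, div_eq_mul_inv]
      calc DY q Γ (nlCut τc (nlRes q g)) s ≤ DY q Γ (nlRes q g) s :=
            nl_DY_cut_le q hq1 Γ hΓ τc _ s hs0
        _ = DY q Γ (Res q g) s := nl_res_DY_neg q Γ g s
        _ ≤ C1 / Real.sqrt (-s) := (hD s hsΛ).1
        _ = C1 * (-s) ^ (-(1 / 2 : ℝ)) := e
    refine le_trans h1 (mul_le_mul_of_nonneg_right ?_ hP)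
    linarith
  · intro t ht
    rw [hsq]
    have h1 : ∫ s in ts..t, HY q η (nlCut τc (nlRes q g)) s
        ≤ C2 / (1 - 81 / 100) * (-ts) ^ ((18 : ℝ) / 100) := by
      refine nl_res_int (nl_cont_HY q η hsm) hC2 (by norm_num) (by norm_num) hts1 ht ?_
      intro s hs
      have hs0 : s < 0 := hs.2
      have hsΛ : s ∈ Ico (-Λ₂) 0 := ⟨by linarith [hts.1, hs.1], hs.2⟩
      have e : (-(81 : ℝ) / 100) = -(81 / 100 : ℝ) := by norm_num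
      calc HY q η (nlCut τc (nlRes q g)) s ≤ HY q η (nlRes q g) s :=
            nl_HY_cut_le q hq1 η τc _ s hs0
        _ = HY q η (Res q g) s := nl_res_HY_neg q η g s
        _ ≤ C2 * (-s) ^ (-(81 : ℝ) / 100) := hH η hη s hsΛ
        _ = C2 * (-s) ^ (-(81 / 100 : ℝ)) := by rw [e]
    refine le_trans h1 (mul_le_mul_of_nonneg_right ?_ hP)
    linarith

end Claimed.Agent.R324.Core
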