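/-
Row 324 (S0582), PDE core, module NL (blueprint 7.5, N2), architect helper232.      FILE Rec: the recursion.     PORT of R325/Core/NL/Rec.lean (Pk57).
`U_0 = 0`, `U_{k+1} = U_k + δ_k`, `δ_0 = Sol(-θ Res)`, `δ_k = Sol(θ (NN U_k - NN U_{k-1}))`, `β_k = b_0 + ... + b_k`.
-/
import Claimed.Agent.R324.Core.NL.Res
import Claimed.Agent.R324.Core.Linear

set_option autoImplicit false

namespace Claimed.Agent.R324.Core

open Set Filter Topology MeasureTheory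
open scoped ContDiff

/-- dependent choice. -/
theorem nl_dep_choice {α : Type} (P : ℕ → α → Prop) (Rl : ℕ → α → α → Prop) (h0 : ∃ a, P 0 a)
    (hs : ∀ k a, P k a → ∃ b, P (k + 1) b ∧ Rl k a b) :
    ∃ f : ℕ → α, (∀ k, P k (f k)) ∧ ∀ k, Rl k (f k) (f (k + 1)) := by
  classical
  obtain ⟨a0, ha0⟩ := h0
  have : Nonempty α := ⟨a0⟩
  choose! g hg using hs
  let f : ℕ → α := fun k => Nat.rec a0 (fun k a => g k a) k
  have hP : ∀ k, P k (f k) := by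
    intro k
    induction k with
    | zero => exact ha0
    | succ k ih => exact (hg k _ ih).1
  exact ⟨f, hP, fun k => (hg k _ (hP k)).2⟩

/-- the conclusion of `linear_solve` at a fixed `τs`. -/
def LinS (q : ℝ) (g : Bg) (Γ η C Δ τs : ℝ) (N : ℕ) (Ac : Fin N → Tri) (Cd : ℕ → ℝ) : Prop :=
  ∀ (S : Tri) (R : ℝ), 0 ≤ R → (∀ j, Sm (S j)) →
    (∀ j, ∀ t ≤ tOf (τs + Δ), ∀ y ∈ Icc (-1 : ℝ) 1, S j (t, y) = 0) →
    YB q Γ η (tOf τs) R S →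
    ∃ (U : Tri) (β : ℝ → EuclideanSpace ℝ (Fin N)),
      (∀ j, Sm (U j)) ∧ (∀ j, ∀ t ≤ tOf τs, ∀ y ∈ Icc (-1 : ℝ) 1, U j (t, y) = 0) ∧
      ContDiff ℝ ∞ β ∧ (∀ τ, τ ≤ τs ∨ τs + Δ ≤ τ → β τ = 0) ∧
      (∀ l τ, ‖iteratedDeriv l β τ‖ ≤ Cd l * R) ∧
      (∀ j, ∀ t < 0, ∀ y ∈ Icc (-1 : ℝ) 1,
        dT (U j) (t, y) = Lt q g U j (t, y) + S j (t, y) + ∑ i, β (tauOf t) i * Ac i j (t, y)) ∧
      XB q g Γ (tOf τs) (C * R) U

/-- the contraction property of the nonlinear term on the ball of radius `r`. -/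
def ContrN (q : ℝ) (g : Bg) (Γ η τs Δ r κ : ℝ) : Prop :=
  ∀ U V : Tri, (∀ j, Sm (U j)) → (∀ j, Sm (V j)) → ∀ rd : ℝ, XB q g Γ (tOf τs) r U → XB q g Γ (tOf τs) r V →
    XB q g Γ (tOf τs) rd (nlSub U V) →
    YB q Γ η (tOf τs) (κ * rd) (nlCut (τs + Δ) (nlSub (NN q g U) (NN q g V)))

/-- the invariant of the recursion: the state is `(U_k, U_{k+1}, β_k)`. -/
structure StInv (q : ℝ) (g : Bg) (Γ τs Δ ρ : ℝ) (N : ℕ) (Ac : Fin N → Tri) (Cd : ℕ → ℝ) (k : ℕ)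
    (a : Tri × Tri × (ℝ → EuclideanSpace ℝ (Fin N))) : Prop where
  smu : ∀ j, Sm (a.1 j)
  smv : ∀ j, Sm (a.2.1 j)
  zu : ∀ j, ∀ t ≤ tOf τs, ∀ y ∈ Icc (-1 : ℝ) 1, a.1 j (t, y) = 0
  zv : ∀ j, ∀ t ≤ tOf τs, ∀ y ∈ Icc (-1 : ℝ) 1, a.2.1 j (t, y) = 0
  u0 : k = 0 → a.1 = fun _ _ => 0
  xu : XB q g Γ (tOf τs) (ρ * (3 - 2 / 2 ^ k)) a.1
  xv : XB q g Γ (tOf τs) (ρ * (3 - 1 / 2 ^ k)) a.2.1
  xd : XB q g Γ (tOf τs) (ρ / 2 ^ k) (nlSub a.2.1 a.1)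
  eq : ∀ j, ∀ t < 0, ∀ y ∈ Icc (-1 : ℝ) 1,
    dT (a.2.1 j) (t, y) = Lt q g a.2.1 j (t, y)
      + thetaC (τs + Δ) t * (NN q g a.1 j (t, y) - Res q g j (t, y)) + ∑ i, a.2.2 (tauOf t) i * Ac i j (t, y)
  bsm : ContDiff ℝ ∞ a.2.2
  bsupp : ∀ τ, τ ≤ τs ∨ τs + Δ ≤ τ → a.2.2 τ = 0
  bbd : ∀ l τ, ‖iteratedDeriv l a.2.2 τ‖ ≤ |Cd l| * ρ * (2 - 1 / 2 ^ k)

variable {q : ℝ} {g : Bg}

/-- the initial state. -/
theorem nl_init (hg : BgSm g) {Γ η C Δ τs ρ R0 : ℝ} {N : ℕ} {Ac : Fin N → Tri} {Cd : ℕ → ℝ}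
    (hC : 0 ≤ C) (hR0 : 0 < R0) (hρ : ρ = (C + 1) * R0) (hL : LinS q g Γ η C Δ τs N Ac Cd)
    (h0 : YB q Γ η (tOf τs) R0 (nlCut (τs + Δ) (nlRes q g))) :
    ∃ a, StInv q g Γ τs Δ ρ N Ac Cd 0 a := by
  obtain ⟨δ, b, hδ, hz, hb, hbs, hbb, heq, hx⟩ := hL _ R0 hR0.le (nl_sm_cut (τs + Δ) (nl_sm_res hg q))
    (fun j t ht y _ => nl_cut_zero _ j ht y) h0
  have hCR : C * R0 ≤ ρ := by rw [hρ]; nlinarith
  have hρ0 : 0 < ρ := by rw [hρ]; positivity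
  have hR0ρ : R0 ≤ ρ := by rw [hρ]; nlinarith
  refine ⟨(fun _ _ => 0, δ, b), ?_⟩
  refine ⟨nl_sm_zero, hδ, fun _ _ _ _ _ => rfl, hz, fun _ => rfl, nl_XB_zero q g Γ _ _, ?_, ?_, ?_, hb,
    hbs, ?_⟩
  · exact nl_XB_mono hx (by positivity) (by norm_num; linarith)
  · have e : nlSub δ (fun _ _ => 0) = δ := by funext j p; simp [nlSub]
    show XB q g Γ (tOf τs) (ρ / 2 ^ 0) (nlSub δ (fun _ _ => 0))
    rw [e]
    exact nl_XB_mono hx (by positivity) (by simpa using hCR)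
  · intro j t ht y hy
    show dT (δ j) (t, y) = Lt q g δ j (t, y)
      + thetaC (τs + Δ) t * (NN q g (fun _ _ => 0) j (t, y) - Res q g j (t, y)) + ∑ i, b (tauOf t) i * Ac i j (t, y)
    rw [heq j t ht y hy, nl_NN_zero, zero_sub]
    rfl
  · intro l τ
    show ‖iteratedDeriv l b τ‖ ≤ |Cd l| * ρ * (2 - 1 / 2 ^ 0)
    calc ‖iteratedDeriv l b τ‖ ≤ Cd l * R0 := hbb l τ
      _ ≤ |Cd l| * ρ := mul_le_mul (le_abs_self _) hR0ρ hR0.le (abs_nonneg _)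
      _ = |Cd l| * ρ * (2 - 1 / 2 ^ 0) := by norm_num

/-- one step. -/
theorem nl_step (hq : 1 < q) (hg : BgSm g) {Γ η C Δ τs ρ κ : ℝ} (hΓ : 0 ≤ Γ) {N : ℕ} {Ac : Fin N → Tri}
    {Cd : ℕ → ℝ} (hC : 0 ≤ C) (hρ0 : 0 < ρ) (hκ0 : 0 ≤ κ) (hκ : (C + 1) * κ ≤ 1 / 2)
    (hL : LinS q g Γ η C Δ τs N Ac Cd) (hN : ContrN q g Γ η τs Δ (3 * ρ) κ) (k : ℕ)
    (a : Tri × Tri × (ℝ → EuclideanSpace ℝ (Fin N)))
    (ha : StInv q g Γ τs Δ ρ N Ac Cd k a) :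
    ∃ b, StInv q g Γ τs Δ ρ N Ac Cd (k + 1) b ∧ (b.1 = a.2.1 ∧
      ∀ l τ, ‖iteratedDeriv l (fun s => b.2.2 s - a.2.2 s) τ‖ ≤ |Cd l| * ρ / 2 ^ (k + 1)) := by
  obtain ⟨u, v, β⟩ := a
  have hk : (0 : ℝ) < 2 ^ k := by positivity
  have hk1 : (1 : ℝ) ≤ 2 ^ k := one_le_pow₀ (by norm_num)
  have hinv : 1 / (2 : ℝ) ^ k ≤ 1 := by rw [div_le_one hk]; exact hk1
  have hinv0 : 0 < 1 / (2 : ℝ) ^ k := by positivity
  have e2 : (2 : ℝ) / 2 ^ k = 2 * (1 / 2 ^ k) := by ring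
  have es : (1 : ℝ) / 2 ^ (k + 1) = 1 / 2 * (1 / 2 ^ k) := by rw [pow_succ]; field_simp
  have es2 : (2 : ℝ) / 2 ^ (k + 1) = 1 / 2 ^ k := by rw [pow_succ]; field_simp
  have hxu : XB q g Γ (tOf τs) (3 * ρ) u :=
    nl_XB_mono ha.xu (mul_nonneg hρ0.le (by rw [e2]; linarith)) (by rw [e2]; nlinarith)
  have hxv : XB q g Γ (tOf τs) (3 * ρ) v :=
    nl_XB_mono ha.xv (mul_nonneg hρ0.le (by linarith)) (by nlinarith)
  have hsmu : ∀ j, Sm (u j) := ha.smu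
  have hsmv : ∀ j, Sm (v j) := ha.smv
  have hY := hN v u hsmv hsmu (ρ / 2 ^ k) hxv hxu ha.xd
  have hR : 0 ≤ κ * (ρ / 2 ^ k) := by positivity
  obtain ⟨δ, b, hδ, hz, hb, hbs, hbb, heq, hx⟩ := hL _ _ hR
    (nl_sm_cut (τs + Δ) (nl_sm_sub (sm_NN hq hg hsmv) (sm_NN hq hg hsmu)))
    (fun j t ht y _ => nl_cut_zero _ j ht y) hY
  have hzv : ∀ j, ∀ t ≤ tOf τs, ∀ y ∈ Icc (-1 : ℝ) 1, v j (t, y) = 0 := ha.zv
  have hbsupp : ∀ τ, τ ≤ τs ∨ τs + Δ ≤ τ → β τ = 0 := ha.bsupp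
  have hβsm : ContDiff ℝ ∞ β := ha.bsm
  have haeq : ∀ j, ∀ t < 0, ∀ y ∈ Icc (-1 : ℝ) 1, dT (v j) (t, y) = Lt q g v j (t, y)
      + thetaC (τs + Δ) t * (NN q g u j (t, y) - Res q g j (t, y)) + ∑ i, β (tauOf t) i * Ac i j (t, y) := ha.eq
  have hbbd : ∀ l τ, ‖iteratedDeriv l β τ‖ ≤ |Cd l| * ρ * (2 - 1 / 2 ^ k) := ha.bbd
  have heq' : ∀ j, ∀ t < 0, ∀ y ∈ Icc (-1 : ℝ) 1, dT (δ j) (t, y) = Lt q g δ j (t, y)
      + thetaC (τs + Δ) t * (NN q g v j (t, y) - NN q g u j (t, y)) + ∑ i, b (tauOf t) i * Ac i j (t, y) := heq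
  have hκ' : κ ≤ 1 / 2 := by nlinarith
  have hCκ : C * κ ≤ 1 / 2 := by nlinarith
  have hq' : 0 < ρ / 2 ^ k := by positivity
  have hR1 : κ * (ρ / 2 ^ k) ≤ ρ / 2 ^ (k + 1) := by
    have : ρ / 2 ^ (k + 1) = 1 / 2 * (ρ / 2 ^ k) := by rw [pow_succ]; field_simp
    rw [this]; exact mul_le_mul_of_nonneg_right hκ' hq'.le
  have hR2 : C * (κ * (ρ / 2 ^ k)) ≤ ρ / 2 ^ (k + 1) := by
    have : ρ / 2 ^ (k + 1) = 1 / 2 * (ρ / 2 ^ k) := by rw [pow_succ]; field_simp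
    rw [this, ← mul_assoc]; exact mul_le_mul_of_nonneg_right hCκ hq'.le
  have hxδ : XB q g Γ (tOf τs) (ρ / 2 ^ (k + 1)) δ := nl_XB_mono hx (mul_nonneg hC hR) hR2
  have hbd : ∀ l τ, ‖iteratedDeriv l b τ‖ ≤ |Cd l| * ρ / 2 ^ (k + 1) := by
    intro l τ
    calc ‖iteratedDeriv l b τ‖ ≤ Cd l * (κ * (ρ / 2 ^ k)) := hbb l τ
      _ ≤ |Cd l| * (ρ / 2 ^ (k + 1)) := mul_le_mul (le_abs_self _) hR1 hR (abs_nonneg _)
      _ = |Cd l| * ρ / 2 ^ (k + 1) := by ring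
  refine ⟨(v, nlAdd v δ, fun s => β s + b s), ?_, rfl, ?_⟩
  · refine ⟨hsmv, nl_sm_add hsmv hδ, ha.zv, ?_, fun h => absurd h (Nat.succ_ne_zero k), ?_, ?_,
      ?_, ?_, ha.bsm.add hb, ?_, ?_⟩
    · intro j t ht y hy
      show v j (t, y) + δ j (t, y) = 0
      rw [hzv j t ht y hy, hz j t ht y hy, add_zero]
    · show XB q g Γ (tOf τs) (ρ * (3 - 2 / 2 ^ (k + 1))) v
      rw [es2]; exact ha.xv
    · show XB q g Γ (tOf τs) (ρ * (3 - 1 / 2 ^ (k + 1))) (nlAdd v δ)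
      have e : ρ * (3 - 1 / 2 ^ (k + 1)) = ρ * (3 - 1 / 2 ^ k) + ρ / 2 ^ (k + 1) := by
        have : ρ / 2 ^ (k + 1) = ρ * (1 / 2 ^ (k + 1)) := by ring
        rw [this, es]; ring
      rw [e]
      exact nl_XB_add hq hg hΓ (mul_pos hρ0 (by linarith)) (by positivity) hsmv hδ ha.xv hxδ
    · show XB q g Γ (tOf τs) (ρ / 2 ^ (k + 1)) (nlSub (nlAdd v δ) v)
      have e : nlSub (nlAdd v δ) v = δ := by funext j p; simp [nlSub, nlAdd]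
      rw [e]; exact hxδ
    · intro j t ht y hy
      show dT (nlAdd v δ j) (t, y) = Lt q g (nlAdd v δ) j (t, y)
        + thetaC (τs + Δ) t * (NN q g v j (t, y) - Res q g j (t, y))
        + ∑ i, (β (tauOf t) + b (tauOf t)) i * Ac i j (t, y)
      rw [nl_dT_add hsmv hδ ht, nl_Lt_add q g hsmv hδ ht, haeq j t ht y hy, heq' j t ht y hy]
      have e : ∑ i, (β (tauOf t) + b (tauOf t)) i * Ac i j (t, y)
          = ∑ i, β (tauOf t) i * Ac i j (t, y) + ∑ i, b (tauOf t) i * Ac i j (t, y) := by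
        rw [← Finset.sum_add_distrib]
        refine Finset.sum_congr rfl fun i _ => ?_
        rw [PiLp.add_apply]; ring
      rw [e]
      ring
    · intro τ hτ
      show β τ + b τ = 0
      rw [hbsupp τ hτ, hbs τ hτ, add_zero]
    · intro l τ
      show ‖iteratedDeriv l (fun s => β s + b s) τ‖ ≤ |Cd l| * ρ * (2 - 1 / 2 ^ (k + 1))
      have e : iteratedDeriv l (fun s => β s + b s) τ = iteratedDeriv l β τ + iteratedDeriv l b τ :=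
        iteratedDeriv_add (hβsm.contDiffAt.of_le (by exact_mod_cast le_top))
          (hb.contDiffAt.of_le (by exact_mod_cast le_top))
      rw [e]
      calc ‖iteratedDeriv l β τ + iteratedDeriv l b τ‖
          ≤ ‖iteratedDeriv l β τ‖ + ‖iteratedDeriv l b τ‖ := norm_add_le _ _
        _ ≤ |Cd l| * ρ * (2 - 1 / 2 ^ k) + |Cd l| * ρ / 2 ^ (k + 1) := add_le_add (hbbd l τ) (hbd l τ)
        _ = |Cd l| * ρ * (2 - 1 / 2 ^ (k + 1)) := by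
          have : |Cd l| * ρ / 2 ^ (k + 1) = |Cd l| * ρ * (1 / 2 ^ (k + 1)) := by ring
          rw [this, es]; ring
  · intro l τ
    show ‖iteratedDeriv l (fun s => β s + b s - β s) τ‖ ≤ |Cd l| * ρ / 2 ^ (k + 1)
    have e : (fun s => β s + b s - β s) = b := by funext s; simp
    rw [e]; exact hbd l τ

/-- the sequence of iterates, from the linear solver, the smallness of `θ Res` and the contraction estimate. -/
theorem nl_iter_of (hq : 1 < q) (hg : BgSm g) {Γ η C Δ τs ρ R0 κ ε : ℝ} (hΓ : 0 ≤ Γ) {N : ℕ}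
    {Ac : Fin N → Tri} {Cd : ℕ → ℝ} (hC : 0 ≤ C) (hR0 : 0 < R0) (hρ : ρ = (C + 1) * R0)
    (hκ0 : 0 ≤ κ) (hκ : (C + 1) * κ ≤ 1 / 2) (hε : 3 * ρ ≤ ε) (hL : LinS q g Γ η C Δ τs N Ac Cd)
    (h0 : YB q Γ η (tOf τs) R0 (nlCut (τs + Δ) (nlRes q g)))
    (hN : ContrN q g Γ η τs Δ (3 * ρ) κ) :
    ∃ (U : ℕ → Tri) (β : ℕ → ℝ → EuclideanSpace ℝ (Fin N)), Iter q g Γ ε τs Δ N Ac U β := by
  have hρ0 : 0 < ρ := by rw [hρ]; positivity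
  obtain ⟨f, hP, hR⟩ := nl_dep_choice (StInv q g Γ τs Δ ρ N Ac Cd)
    (fun k a b => b.1 = a.2.1 ∧
      ∀ l τ, ‖iteratedDeriv l (fun s => b.2.2 s - a.2.2 s) τ‖ ≤ |Cd l| * ρ / 2 ^ (k + 1))
    (nl_init hg hC hR0 hρ hL h0) (nl_step hq hg hΓ hC hρ0 hκ0 hκ hL hN)
  have hpow : ∀ k : ℕ, (0 : ℝ) < 1 / 2 ^ k ∧ 1 / (2 : ℝ) ^ k ≤ 1 := by
    intro k
    have hk : (0 : ℝ) < 2 ^ k := by positivity
    exact ⟨by positivity, by rw [div_le_one hk]; exact one_le_pow₀ (by norm_num)⟩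
  refine ⟨fun k => (f k).1, fun k => (f k).2.2, ?_⟩
  refine ⟨fun k => (hP k).smu, fun k => (hP k).zu, fun j p => by rw [(hP 0).u0 rfl], ?_, ?_, ?_,
    fun k => (hP k).bsm, fun k => (hP k).bsupp, ?_⟩
  · intro k j t ht y hy
    show dT ((f (k + 1)).1 j) (t, y) = Lt q g (f (k + 1)).1 j (t, y) + _ + _
    rw [(hR k).1]
    exact (hP k).eq j t ht y hy
  · intro k
    have e2 : (2 : ℝ) / 2 ^ k = 2 * (1 / 2 ^ k) := by ring
    exact nl_XB_mono (hP k).xu (mul_nonneg hρ0.le (by rw [e2]; linarith [(hpow k).2]))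
      (by rw [e2]; nlinarith [(hpow k).1])
  · intro k
    show XB q g Γ (tOf τs) (ε / 2 ^ k) (nlSub (f (k + 1)).1 (f k).1)
    rw [(hR k).1]
    exact nl_XB_mono (hP k).xd (by positivity)
      (div_le_div_of_nonneg_right (by linarith) (by positivity))
  · refine ⟨fun l => 2 * |Cd l| * ρ, fun k l τ => ⟨?_, ?_⟩⟩
    · refine ((hP k).bbd l τ).trans ?_
      have : 0 ≤ |Cd l| * ρ := by positivity
      nlinarith [(hpow k).1]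
    · refine ((hR k).2 l τ).trans ?_
      have h1 : 0 ≤ |Cd l| * ρ := by positivity
      have hk : (0 : ℝ) < 2 ^ k := by positivity
      rw [pow_succ, div_le_div_iff₀ (by positivity) hk]
      nlinarith [mul_nonneg h1 hk.le, mul_nonneg (mul_nonneg h1 hk.le) hk.le]

/-- choice of the starting time:  `σ = (-t_s)^{9/100}` small, `-t_s ≤ Λ₀`. -/
theorem nl_exists_tau {σ0 : ℝ} (hσ : 0 < σ0) (τ' : ℝ) :
    ∃ τs : ℝ, τ' ≤ τs ∧ (-tOf τs) ^ ((9 : ℝ) / 100) ≤ σ0 ∧ -tOf τs ≤ σ0 ∧ -tOf τs ≤ 1 := by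
  refine ⟨max τ' (max 0 (max (-Real.log σ0) (-(100 / 9 * Real.log σ0)))), le_max_left _ _, ?_, ?_, ?_⟩
  all_goals
    set τs := max τ' (max 0 (max (-Real.log σ0) (-(100 / 9 * Real.log σ0)))) with hτ
    have h0 : 0 ≤ τs := le_trans (le_max_left _ _) (le_max_right _ _)
    have h1 : -Real.log σ0 ≤ τs :=
      le_trans (le_trans (le_max_left _ _) (le_max_right _ _)) (le_max_right _ _)
    have h2 : -(100 / 9 * Real.log σ0) ≤ τs :=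
      le_trans (le_trans (le_max_right _ _) (le_max_right _ _)) (le_max_right _ _)
    have e : -tOf τs = Real.exp (-τs) := by unfold tOf; ring
    rw [e]
  · rw [← Real.exp_mul, ← Real.le_log_iff_exp_le hσ]
    linarith
  · rw [← Real.le_log_iff_exp_le hσ]
    linarith
  · rw [Real.exp_le_one_iff]
    linarith

/-- hygiene: the on-demand equation lemmas of the definitions of this file are generated here. -/
theorem nl_rec_hygiene : True := by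
  have := @LinS.eq_1
  have := @ContrN.eq_1
  trivial

end Claimed.Agent.R324.Core
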