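/-
Row 324 (S0582), PDE core, module NL (blueprint 7.5, N2), architect helper232.      FILE Main: `nl_iteration` = the statement of `iteration` (Core/Nonlin.lean).
-/
import Claimed.Agent.R324.Core.NL.Rec

set_option autoImplicit false

namespace Claimed.Agent.R324.Core

open Set Filter Topology MeasureTheory
open scoped ContDiff

theorem nl_YB_of_sq {q Γ η ts R R' : ℝ} {S : Tri} (h : YB q Γ η ts R S) (hR : R ^ 2 ≤ R' ^ 2) : YB q Γ η ts R' S :=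
  ⟨fun t ht => (h.dy t ht).trans hR, fun t ht => (h.hy t ht).trans hR⟩

/-- **Module NL.** -/
theorem nl_iteration (q : ℕ) (hq : Odd q) (hq6 : 10 ^ 6 ≤ q) (g : Bg) (hg : BgGood q g) :
    ∃ Γ₂ : ℝ, ∀ Γ : ℝ, Γ₂ ≤ Γ →
    ∃ (Δ : ℝ) (N : ℕ) (Ac : Fin N → Tri), 0 < Δ ∧ (∀ i j, Sm (Ac i j)) ∧
      ∀ ε : ℝ, 0 < ε → ∀ τ₀ : ℝ, ∃ τs : ℝ, τ₀ ≤ τs ∧
        ∃ (U : ℕ → Tri) (β : ℕ → ℝ → EuclideanSpace ℝ (Fin N)), Iter q g Γ ε τs Δ N Ac U β := by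
  have hq1 : (1 : ℝ) < q := by
    have : (10 ^ 6 : ℝ) ≤ q := by exact_mod_cast hq6
    linarith
  obtain ⟨Γ₁, hlin⟩ := linear_solve q hq hq6 g hg
  refine ⟨max Γ₁ 0, fun Γ hΓ' => ?_⟩
  have hΓ1 : Γ₁ ≤ Γ := (le_max_left _ _).trans hΓ'
  have hΓ : 0 ≤ Γ := (le_max_right _ _).trans hΓ'
  obtain ⟨η, C, Δ, τbar, N, Ac, Cd, hη1, hη2, hΔ, hC, hAc, hsolve⟩ := hlin Γ hΓ1
  obtain ⟨Ce, Λe, hCe, hΛe, hea⟩ := nl_YB_res q hq6 g hg Γ hΓ
  obtain ⟨r0, CN, Λn, hr0, hCN, hΛn, hcontr⟩ := nl_N1_time q hq6 g hg Γ hΓ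
  refine ⟨Δ, N, Ac, hΔ, hAc, fun ε hε τ₀ => ?_⟩
  set K1 : ℝ := 3 * ((C + 1) * Ce) with hK1
  have hK1pos : 0 < K1 := by positivity
  set K2 : ℝ := (C + 1) * (CN * (K1 + 1)) with hK2
  have hK2nn : 0 ≤ K2 := by positivity
  set σ0 : ℝ := min (min (ε / K1) (r0 / K1)) (min (1 / (2 * (K2 + 1))) (min Λe Λn)) with hσ0
  have hσ0pos : 0 < σ0 := by
    refine lt_min (lt_min (by positivity) (by positivity)) (lt_min (by positivity) (lt_min hΛe hΛn))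
  obtain ⟨τs, hτs, hσ, hts1, hts2⟩ := nl_exists_tau hσ0pos (max τ₀ τbar)
  set σ : ℝ := (-tOf τs) ^ ((9 : ℝ) / 100) with hσdef
  have hts0 : tOf τs < 0 := by unfold tOf; simp [Real.exp_pos]
  have hσpos : 0 < σ := Real.rpow_pos_of_pos (by linarith) _
  have h1 : σ ≤ ε / K1 := hσ.trans ((min_le_left _ _).trans (min_le_left _ _))
  have h2 : σ ≤ r0 / K1 := hσ.trans ((min_le_left _ _).trans (min_le_right _ _))
  have h3 : σ ≤ 1 / (2 * (K2 + 1)) := hσ.trans ((min_le_right _ _).trans (min_le_left _ _))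
  have h4 : -tOf τs ≤ Λe := hts1.trans ((min_le_right _ _).trans ((min_le_right _ _).trans (min_le_left _ _)))
  have h5 : -tOf τs ≤ Λn := hts1.trans ((min_le_right _ _).trans ((min_le_right _ _).trans (min_le_right _ _)))
  have htse : tOf τs ∈ Ico (-Λe) 0 := ⟨by linarith, hts0⟩
  have htsn : tOf τs ∈ Ico (-Λn) 0 := ⟨by linarith, hts0⟩
  have hsq : (-tOf τs) ^ 2 ≤ σ := by
    have := Real.rpow_le_rpow_of_exponent_ge (x := -tOf τs) (y := (2 : ℝ)) (z := (9 : ℝ) / 100) (by linarith) hts2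
      (by norm_num)
    rwa [Real.rpow_two] at this
  have hρe : 3 * ((C + 1) * (Ce * σ)) = K1 * σ := by rw [hK1]; ring
  have h1' : K1 * σ ≤ ε := by rw [le_div_iff₀ hK1pos] at h1; linarith
  have h2' : K1 * σ ≤ r0 := by rw [le_div_iff₀ hK1pos] at h2; linarith
  have h3' : K2 * σ ≤ 1 / 2 := by
    rw [le_div_iff₀ (by positivity)] at h3
    nlinarith
  refine ⟨τs, (le_max_left _ _).trans hτs, ?_⟩
  refine nl_iter_of hq1 hg.sm (η := η) (C := C) (ρ := (C + 1) * (Ce * σ)) (R0 := Ce * σ)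
    (κ := CN * (K1 * σ + σ)) (Cd := Cd) hΓ hC (by positivity) rfl (by positivity) ?_ ?_ ?_ ?_ ?_
  · calc (C + 1) * (CN * (K1 * σ + σ)) = K2 * σ := by rw [hK2]; ring
      _ ≤ 1 / 2 := h3'
  · rw [hρe]; exact h1'
  · exact hsolve τs ((le_max_right _ _).trans hτs)
  · exact hea η hη2.le (tOf τs) htse (τs + Δ)
  · intro U V hU hV rd hxu hxv hxd
    rw [hρe] at hxu hxv
    have hY := hcontr η hη2.le (tOf τs) htsn (τs + Δ) U V hU hV (K1 * σ) rd (by positivity) h2' hxu hxv hxd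
    refine nl_YB_of_sq hY ?_
    have ha : 0 ≤ CN * (K1 * σ + (-tOf τs) ^ 2) := by positivity
    have hb : CN * (K1 * σ + (-tOf τs) ^ 2) ≤ CN * (K1 * σ + σ) := by gcongr
    rw [mul_pow, mul_pow (CN * (K1 * σ + σ))]
    exact mul_le_mul_of_nonneg_right (pow_le_pow_left₀ ha hb 2) (sq_nonneg rd)

end Claimed.Agent.R324.Core
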